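import Vale.Agent.P272.K.Stmt
import Mathlib.MeasureTheory.Measure.Lebesgue.VolumeOfBalls

/-!
# P284, package FL : the cubes of side `s` of `ℂⁿ`
-/

open MeasureTheory Set Filter Topology Metric
open scoped ContDiff ENNReal
open Vale.Agent.P272.K

noncomputable section

namespace Vale.Agent.P284.H723

variable {n : ℕ}

/-- the index of the cube which contains `z` -/
def idx (s : ℝ) (z : Cm n) : Fin n → ℤ × ℤ := fun j => (⌊(z j).re / s⌋, ⌊(z j).im / s⌋)

/-- the cube with index `a` -/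
def cube (s : ℝ) (a : Fin n → ℤ × ℤ) : Set (Cm n) := {z | idx s z = a}

/-- the factors of a cube -/
def sq (s : ℝ) (b : ℤ × ℤ) : Set ℂ := {w | ⌊w.re / s⌋ = b.1 ∧ ⌊w.im / s⌋ = b.2}

theorem mem_cube {s : ℝ} {a : Fin n → ℤ × ℤ} {z : Cm n} : z ∈ cube s a ↔ idx s z = a := Iff.rfl

theorem cube_eq_pi (s : ℝ) (a : Fin n → ℤ × ℤ) : cube s a = univ.pi fun j => sq s (a j) := by
  ext z
  simp only [cube, mem_ofPred_eq, Set.mem_pi, mem_univ, true_imp_iff, sq]
  constructor
  · rintro rfl j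
    exact ⟨rfl, rfl⟩
  · intro h
    funext j
    exact Prod.ext (h j).1 (h j).2

theorem sq_eq {s : ℝ} (hs : 0 < s) (b : ℤ × ℤ) : sq s b =
    Complex.measurableEquivRealProd ⁻¹' (Ico (b.1 * s) ((b.1 + 1) * s) ×ˢ
      Ico (b.2 * s) ((b.2 + 1) * s)) := by
  ext w
  simp only [sq, mem_ofPred_eq, mem_preimage, Complex.measurableEquivRealProd_apply, mem_prod,
    mem_Ico, Int.floor_eq_iff, le_div_iff₀ hs, div_lt_iff₀ hs]

theorem measurableSet_sq {s : ℝ} (hs : 0 < s) (b : ℤ × ℤ) : MeasurableSet (sq s b) := by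
  rw [sq_eq hs]
  exact Complex.measurableEquivRealProd.measurable (measurableSet_Ico.prod measurableSet_Ico)

theorem volume_sq {s : ℝ} (hs : 0 < s) (b : ℤ × ℤ) : volume (sq s b) = ENNReal.ofReal (s ^ 2) := by
  rw [sq_eq hs, Complex.volume_preserving_equiv_real_prod.measure_preimage
    (measurableSet_Ico.prod measurableSet_Ico).nullMeasurableSet, Measure.volume_eq_prod,
    Measure.prod_prod, Real.volume_Ico, Real.volume_Ico, ← ENNReal.ofReal_mul]
  · congr 1; ring
  · nlinarith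

theorem convex_sq {s : ℝ} (hs : 0 < s) (b : ℤ × ℤ) : Convex ℝ (sq s b) := by
  have h1 : Convex ℝ (Complex.reLm ⁻¹' (Ico ((b.1 : ℝ) * s) ((b.1 + 1) * s))) :=
    (convex_Ico _ _).linear_preimage _
  have h2 : Convex ℝ (Complex.imLm ⁻¹' (Ico ((b.2 : ℝ) * s) ((b.2 + 1) * s))) :=
    (convex_Ico _ _).linear_preimage _
  have : sq s b = Complex.reLm ⁻¹' (Ico ((b.1 : ℝ) * s) ((b.1 + 1) * s)) ∩
      Complex.imLm ⁻¹' (Ico ((b.2 : ℝ) * s) ((b.2 + 1) * s)) := by
    ext w
    simp only [sq, mem_ofPred_eq, mem_inter_iff, mem_preimage, Complex.reLm_coe, Complex.imLm_coe,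
      mem_Ico, Int.floor_eq_iff, le_div_iff₀ hs, div_lt_iff₀ hs]
  rw [this]
  exact h1.inter h2

theorem measurableSet_cube {s : ℝ} (hs : 0 < s) (a : Fin n → ℤ × ℤ) :
    MeasurableSet (cube s a) := by
  rw [cube_eq_pi]
  exact MeasurableSet.pi countable_univ fun j _ => measurableSet_sq hs _

theorem convex_cube {s : ℝ} (hs : 0 < s) (a : Fin n → ℤ × ℤ) : Convex ℝ (cube s a) := by
  rw [cube_eq_pi]
  exact convex_pi fun j _ => convex_sq hs _

theorem volume_cube {s : ℝ} (hs : 0 < s) (a : Fin n → ℤ × ℤ) :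
    volume (cube s a) = ENNReal.ofReal (s ^ (2 * n)) := by
  rw [cube_eq_pi, volume_pi_pi]
  simp only [volume_sq hs, Finset.prod_const, Finset.card_univ, Fintype.card_fin]
  rw [← ENNReal.ofReal_pow (by positivity), pow_mul]

theorem volume_real_cube {s : ℝ} (hs : 0 < s) (a : Fin n → ℤ × ℤ) :
    volume.real (cube s a) = s ^ (2 * n) := by
  rw [Measure.real, volume_cube hs, ENNReal.toReal_ofReal (by positivity)]

theorem dist_sq_le {s : ℝ} (hs : 0 < s) {b : ℤ × ℤ} {x y : ℂ} (hx : x ∈ sq s b)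
    (hy : y ∈ sq s b) : ‖y - x‖ ≤ 2 * s := by
  simp only [sq, mem_ofPred_eq, Int.floor_eq_iff, le_div_iff₀ hs, div_lt_iff₀ hs] at hx hy
  refine (Complex.norm_le_abs_re_add_abs_im _).trans ?_
  have h1 : |(y - x).re| ≤ s := by
    rw [Complex.sub_re, abs_le]
    constructor <;> nlinarith [hx.1.1, hx.1.2, hy.1.1, hy.1.2]
  have h2 : |(y - x).im| ≤ s := by
    rw [Complex.sub_im, abs_le]
    constructor <;> nlinarith [hx.2.1, hx.2.2, hy.2.1, hy.2.2]
  linarith

theorem dist_cube_le {s : ℝ} (hs : 0 < s) {a : Fin n → ℤ × ℤ} {x y : Cm n} (hx : x ∈ cube s a)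
    (hy : y ∈ cube s a) : ‖y - x‖ ≤ 2 * s := by
  rw [cube_eq_pi] at hx hy
  rw [pi_norm_le_iff_of_nonneg (by positivity)]
  intro j
  exact dist_sq_le hs (hx j (mem_univ j)) (hy j (mem_univ j))

theorem isBounded_cube {s : ℝ} (hs : 0 < s) (a : Fin n → ℤ × ℤ) :
    Bornology.IsBounded (cube s a) := by
  rw [Metric.isBounded_iff]
  exact ⟨2 * s, fun x hx y hy => by rw [dist_eq_norm]; exact dist_cube_le hs hy hx⟩

theorem volume_real_closedBall {r : ℝ} (hr : 0 ≤ r) :
    volume.real (closedBall (0 : Cm n) r) = Real.pi ^ n * r ^ (2 * n) := by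
  rw [Measure.real, volume_pi_closedBall _ hr]
  simp only [Complex.volume_closedBall, Finset.prod_const, Finset.card_univ, Fintype.card_fin]
  rw [ENNReal.toReal_pow, ENNReal.toReal_mul, ENNReal.toReal_pow, ENNReal.toReal_ofReal hr,
    mul_pow, ← pow_mul]
  simp [mul_comm]

theorem disjoint_cube {s : ℝ} {a b : Fin n → ℤ × ℤ} (h : a ≠ b) :
    Disjoint (cube s a) (cube s b) := by
  rw [Set.disjoint_left]
  intro z h1 h2
  exact h (h1.symm.trans h2)

/-- only finitely many cubes meet a bounded set -/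
theorem finite_idx {s : ℝ} (hs : 0 < s) {P : Set (Cm n)} (hP : Bornology.IsBounded P) :
    (idx s '' P).Finite := by
  obtain ⟨R, hR⟩ := hP.subset_closedBall 0
  refine (Set.Finite.pi' (fun _ : Fin n =>
    (Set.finite_Icc (⌊-(|R| / s)⌋) (⌊|R| / s⌋)).prod
    (Set.finite_Icc (⌊-(|R| / s)⌋) (⌊|R| / s⌋)))).subset ?_
  rintro _ ⟨z, hz, rfl⟩ j
  have h1 : ‖z‖ ≤ |R| := by
    have := hR hz
    rw [mem_closedBall_zero_iff] at this
    exact this.trans (le_abs_self R)
  have h2 : ‖z j‖ ≤ |R| := (norm_le_pi_norm z j).trans h1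
  have h3 := abs_le.1 ((Complex.abs_re_le_norm (z j)).trans h2)
  have h4 := abs_le.1 ((Complex.abs_im_le_norm (z j)).trans h2)
  have e : -(|R| / s) = (-|R|) / s := by ring
  simp only [idx, mem_prod, mem_Icc]
  rw [e]
  exact ⟨⟨Int.floor_le_floor (by gcongr; exact h3.1), Int.floor_le_floor (by gcongr; exact h3.2)⟩,
    ⟨Int.floor_le_floor (by gcongr; exact h4.1), Int.floor_le_floor (by gcongr; exact h4.2)⟩⟩

/-- the number of cubes which meet `P` -/
theorem card_idx_le {s : ℝ} (hs : 0 < s) {P : Set (Cm n)} (hP : Bornology.IsBounded P)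
    (T : Finset (Fin n → ℤ × ℤ)) (hT : ∀ a ∈ T, a ∈ idx s '' P) :
    (T.card : ℝ) * s ^ (2 * n) ≤ volume.real (cthickening (2 * s) P) := by
  have h1 : (⋃ a ∈ T, cube s a) ⊆ cthickening (2 * s) P := by
    intro z hz
    simp only [mem_iUnion] at hz
    obtain ⟨a, ha, hz⟩ := hz
    obtain ⟨q, hq, hqa⟩ := hT a ha
    refine mem_cthickening_of_dist_le z q _ _ hq ?_
    rw [dist_eq_norm]
    exact dist_cube_le hs (show q ∈ cube s a from hqa) hz
  have h2 : volume.real (⋃ a ∈ T, cube s a) = T.card * s ^ (2 * n) := by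
    rw [measureReal_biUnion_finset (fun a _ b _ hab => disjoint_cube hab)
      (fun a _ => measurableSet_cube hs a)
      (fun a _ => (isBounded_cube hs a).measure_lt_top.ne)]
    simp [volume_real_cube hs]
  rw [← h2]
  exact measureReal_mono h1 (hP.cthickening.measure_lt_top.ne)

/-- integration over the cubes -/
theorem integral_eq_sum {s : ℝ} (hs : 0 < s) {P : Set (Cm n)} (T : Finset (Fin n → ℤ × ℤ))
    (hT : ∀ z ∈ P, idx s z ∈ T) {f : Cm n → ℝ} (hf : Integrable f)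
    (h0 : ∀ z, z ∉ P → f z = 0) :
    ∫ z, f z = ∑ a ∈ T, ∫ z in cube s a, f z := by
  rw [← integral_biUnion_finset T (fun a _ => measurableSet_cube hs a)
    (fun a _ b _ hab => disjoint_cube hab) (fun a _ => hf.integrableOn)]
  refine (setIntegral_eq_integral_of_forall_compl_eq_zero fun z hz => ?_).symm
  by_contra h
  have hzP : z ∈ P := by
    by_contra h'
    exact h (h0 z h')
  apply hz
  simp only [mem_iUnion]
  exact ⟨_, hT z hzP, rfl⟩

end Vale.Agent.P284.H723
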