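import Vale.Agent.P284.H723.Pw
import Vale.Agent.P284.H723.Poi
import Vale.Agent.P284.H723.Cube

/-!
# P284, package FL : the estimate in one cube
-/

open MeasureTheory Set Filter Topology Metric
open scoped ContDiff ENNReal ComplexConjugate ComplexOrder
open Vale.Agent.P272.K Vale.Agent.P272.K.INT Vale.Agent.P272.KOD
open Complex (I)

noncomputable section

namespace Vale.Agent.P284.H723

variable {n : ℕ}

/-- the three energies -/
def f0 (κ : ℝ) (φ : Cm n → ℝ) (g : Cm n → ℂ) (z : Cm n) : ℝ :=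
  ‖g z‖ ^ 2 * Real.exp (-(κ * φ z))

def fn (κ : ℝ) (φ : Cm n → ℝ) (g : Cm n → ℂ) (j : Fin n) (z : Cm n) : ℝ :=
  ‖nab (fun y => κ * φ y) j g z‖ ^ 2 * Real.exp (-(κ * φ z))

def fd (κ : ℝ) (φ : Cm n → ℝ) (g : Cm n → ℂ) (j : Fin n) (z : Cm n) : ℝ :=
  ‖dzb j g z‖ ^ 2 * Real.exp (-(κ * φ z))

section

variable {κ : ℝ} {φ : Cm n → ℝ} {g : Cm n → ℂ} {U : Set (Cm n)}

theorem smul_cd {z : Cm n} (hφ : ContDiffAt ℝ ∞ φ z) :
    ContDiffAt ℝ ∞ (fun y => κ * φ y) z := contDiffAt_const.mul hφ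

theorem integrable_cut {f : Cm n → ℝ} (hU : tsupport g ⊆ U) (hgc : HasCompactSupport g)
    (h1 : ∀ z ∈ U, ContinuousAt f z) (h2 : ∀ z, z ∉ tsupport g → f =ᶠ[𝓝 z] fun _ => 0) :
    Integrable f := by
  refine Continuous.integrable_of_hasCompactSupport ?_ ?_
  · rw [continuous_iff_continuousAt]
    intro z
    by_cases h : z ∈ tsupport g
    · exact h1 z (hU h)
    · exact continuousAt_const.congr (h2 z h).symm
  · refine HasCompactSupport.of_support_subset_isCompact (K := tsupport g) hgc fun z hz => ?_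
    by_contra h
    exact hz (h2 z h).self_of_nhds

theorem ev_nz {χ : Cm n → ℝ} {z : Cm n} (hz : z ∉ tsupport g) (j : Fin n) :
    ∀ᶠ y in 𝓝 z, nab χ j g y = 0 ∧ dzb j g y = 0 ∧ g y = 0 := by
  filter_upwards [(ev_zero hz).eventuallyEq_nhds] with y hy
  have h1 : g y = 0 := hy.self_of_nhds
  refine ⟨?_, ?_, h1⟩
  · unfold nab
    rw [dz_congr hy, h1]; simp
  · rw [dzb_congr hy]; simp

variable (hU : tsupport g ⊆ U) (hgc : HasCompactSupport g)
  (hφ : ∀ z ∈ U, ContDiffAt ℝ ∞ φ z) (hg : ContDiff ℝ ∞ g)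

include hU hgc hφ hg

theorem int_f0 : Integrable (f0 κ φ g) :=
  integrable_cut hU hgc (fun z hz => (hg.continuous.continuousAt.norm.pow 2).mul
    ((smul_cd (hφ z hz)).continuousAt.neg.rexp)) fun z hz => by
    filter_upwards [ev_zero hz] with y hy
    simp [f0, hy]

theorem int_fn (j : Fin n) : Integrable (fn κ φ g j) :=
  integrable_cut hU hgc (fun z hz => ((cd_nab (smul_cd (hφ z hz)) hg.contDiffAt
    j).continuousAt.norm.pow 2).mul ((smul_cd (hφ z hz)).continuousAt.neg.rexp)) fun z hz => by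
    filter_upwards [ev_nz (χ := fun y => κ * φ y) hz j] with y hy
    simp [fn, hy.1]

theorem int_fd (j : Fin n) : Integrable (fd κ φ g j) :=
  integrable_cut hU hgc (fun z hz => ((smooth_dzb hg.contDiffAt).continuousAt.norm.pow
    2).mul ((smul_cd (hφ z hz)).continuousAt.neg.rexp)) fun z hz => by
    filter_upwards [ev_nz (χ := fun y => κ * φ y) hz j] with y hy
    simp [fd, hy.2.1]

omit hU hgc hφ hg in
theorem cHess_smul_jj {z : Cm n} (hφ : ContDiffAt ℝ ∞ φ z) (j : Fin n) :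
    (cHess (fun y => κ * φ y) z j j).re = κ * (cHess φ z j j).re := by
  have hc := cd_ofReal hφ
  have t : ∀ {f : Cm n → ℂ}, ContDiffAt ℝ ∞ f z → DifferentiableAt ℝ f z :=
    fun h => h.differentiableAt (by simp)
  have e1 : (dzb j fun y => ((κ * φ y : ℝ) : ℂ)) =ᶠ[𝓝 z]
      fun y => (κ : ℂ) * dzb j (fun y => (φ y : ℂ)) y := by
    have h2 : ∀ᶠ y in 𝓝 z, ContDiffAt ℝ 1 (fun y => (φ y : ℂ)) y :=
      ((hc.of_le (by norm_cast)).eventually (by simp))
    filter_upwards [h2] with y hy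
    have : (fun y => ((κ * φ y : ℝ) : ℂ)) = fun y => (κ : ℂ) * (φ y : ℂ) := by
      funext y; push_cast; ring
    rw [this, dzb_const_mul _ (hy.differentiableAt (by simp))]
  simp only [cHess, Matrix.of_apply]
  rw [dz_congr e1, dz_const_mul _ (t (smooth_dzb hc)), Complex.re_ofReal_mul]

/-- the sum of the energies of `∇` -/
theorem sum_fn_le (hκ : 0 ≤ κ)
    (hb : ∀ z ∈ U, (2 • (1 : Matrix (Fin n) (Fin n) ℂ) - cHess φ z).PosSemidef) (j : Fin n) :
    ∫ z, fn κ φ g j z ≤ (∫ z, fd κ φ g j z) + 2 * κ * ∫ z, f0 κ φ g z := by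
  have h1 := ibp (χ := fun y => κ * φ y) hU hgc (fun z hz => smul_cd (hφ z hz)) hg j
  have h2 : ∫ z, (cHess (fun y => κ * φ y) z j j).re * ‖g z‖ ^ 2 * Real.exp (-(κ * φ z)) ≤
      ∫ z, 2 * κ * f0 κ φ g z := by
    refine integral_mono ?_ ((int_f0 hU hgc hφ hg).const_mul _) fun z => ?_
    · refine integrable_cut hU hgc (fun z hz => ((Complex.continuous_re.continuousAt.comp
        (smooth_dz (smooth_dzb (cd_ofReal (smul_cd (hφ z hz))))).continuousAt).mul
        (hg.continuous.continuousAt.norm.pow 2)).mul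
        ((smul_cd (hφ z hz)).continuousAt.neg.rexp)) fun z hz => ?_
      filter_upwards [ev_zero hz] with y hy
      simp [hy]
    · by_cases h : z ∈ tsupport g
      · have h3 := (hb z (hU h)).diag_nonneg (i := j)
        rw [Matrix.sub_apply, Matrix.smul_apply, Matrix.one_apply_eq] at h3
        have h4 : (cHess φ z j j).re ≤ 2 := by
          have := (Complex.le_def.1 h3).1
          simp at this
          linarith
        have h5 := cHess_smul_jj (κ := κ) (hφ z (hU h)) j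
        show (cHess (fun y => κ * φ y) z j j).re * ‖g z‖ ^ 2 * Real.exp (-(κ * φ z)) ≤
          2 * κ * (‖g z‖ ^ 2 * Real.exp (-(κ * φ z)))
        rw [h5, mul_assoc]
        have h6 : 0 ≤ ‖g z‖ ^ 2 * Real.exp (-(κ * φ z)) := by positivity
        have h7 : κ * (cHess φ z j j).re ≤ 2 * κ := by nlinarith
        exact mul_le_mul_of_nonneg_right h7 h6
      · have h3 : g z = 0 := (ev_zero h).self_of_nhds
        simp [f0, h3]
  rw [integral_const_mul] at h2
  simp only [fn, fd]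
  linarith

end

/-- **the estimate in one cube** -/
theorem cell {κ : ℝ} {φ : Cm n → ℝ} {g : Cm n → ℂ} {s : ℝ} {a : Fin n → ℤ × ℤ} {q : Cm n}
    {U : Set (Cm n)} (hs : 0 < s) (hκ : 0 ≤ κ) (hq : q ∈ cube s a)
    (hU : tsupport g ⊆ U) (hgc : HasCompactSupport g)
    (hφ : ∀ z ∈ U, ContDiffAt ℝ ∞ φ z) (hg : ContDiff ℝ ∞ g) (h2 : ContDiffAt ℝ 2 φ q)
    (hpsi : ∀ z, ‖z - q‖ ≤ 2 * s → DifferentiableAt ℝ φ z ∧ DifferentiableAt ℝ (psi φ q) z ∧
      ‖fderiv ℝ (psi φ q) z‖ ≤ (8 * n + 1) * (2 * s))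
    (hsmall : κ * ((8 * n + 1) * (2 * s) * (2 * s)) ≤ 1) :
    ∫ z in cube s a, f0 κ φ g z ≤
      2 * Real.exp 1 * (s ^ (2 * n))⁻¹ * ‖∫ z in cube s a, tw κ φ q g z‖ ^ 2 +
      16 * n * Real.exp 1 ^ 2 * (4 * Real.pi) ^ n * s ^ 2 *
        ∫ z in cube s a, ((∑ j, (2 * fn κ φ g j z + fd κ φ g j z)) +
          2 * n * (κ * ((8 * n + 1) * (2 * s))) ^ 2 * f0 κ φ g z) := by
  have hGs : ContDiff ℝ ∞ (tw κ φ q g) := contDiff_tw h2 hg
  have hV := volume_real_cube (n := n) hs a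
  have hVpos : 0 < s ^ (2 * n) := by positivity
  have hP := poincare_conv (μ := volume) (hGs.of_le (by norm_cast)) (measurableSet_cube hs a)
    (convex_cube hs a) (r := 2 * s) (fun x hx y hy => dist_cube_le hs hx hy)
    (isBounded_cube hs a) (by rw [hV]; exact hVpos)
  rw [hV, volume_real_closedBall (by positivity)] at hP
  obtain ⟨R, hR⟩ := (isBounded_cube (n := n) hs a).subset_closedBall 0
  have hint : ∀ {f : Cm n → ℝ}, Continuous f → IntegrableOn f (cube s a) := fun hf =>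
    (hf.continuousOn.integrableOn_compact (isCompact_closedBall (0 : Cm n) R)).mono_set hR
  have hG0 : Continuous fun z => ‖tw κ φ q g z‖ ^ 2 := hGs.continuous.norm.pow 2
  have hG1 : Continuous fun z => ‖fderiv ℝ (tw κ φ q g) z‖ ^ 2 :=
    (hGs.continuous_fderiv (by simp)).norm.pow 2
  have hnear : ∀ z ∈ cube s a, ‖z - q‖ ≤ 2 * s := fun z hz => dist_cube_le hs hq hz
  have hps : ∀ z ∈ cube s a, |κ * psi φ q z| ≤ 1 := by
    intro z hz
    have hb : ‖z - q‖ ≤ 2 * s := hnear z hz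
    have h5 := (convex_closedBall q (2 * s)).norm_image_sub_le_of_norm_fderiv_le
      (f := psi φ q) (𝕜 := ℝ) (C := (8 * n + 1) * (2 * s))
      (fun y hy => (hpsi y (by rwa [mem_closedBall, dist_eq_norm] at hy)).2.1)
      (fun y hy => (hpsi y (by rwa [mem_closedBall, dist_eq_norm] at hy)).2.2)
      (mem_closedBall_self (by positivity)) (by rwa [mem_closedBall, dist_eq_norm])
    rw [psi_self, sub_zero, Real.norm_eq_abs] at h5
    rw [abs_mul, abs_of_nonneg hκ]
    calc κ * |psi φ q z| ≤ κ * ((8 * n + 1) * (2 * s) * ‖z - q‖) := by gcongr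
      _ ≤ κ * ((8 * n + 1) * (2 * s) * (2 * s)) := by gcongr
      _ ≤ 1 := hsmall
  -- step 1
  have s1 : ∫ z in cube s a, f0 κ φ g z ≤
      Real.exp 1 * ∫ z in cube s a, ‖tw κ φ q g z‖ ^ 2 := by
    rw [← integral_const_mul]
    refine setIntegral_mono_on (int_f0 hU hgc hφ hg).integrableOn
      ((hint hG0).const_mul _) (measurableSet_cube hs a) fun z hz => ?_
    exact pw1 (hps z hz)
  -- step 2
  have s2 : ∫ z in cube s a, ‖fderiv ℝ (tw κ φ q g) z‖ ^ 2 ≤ 2 * n * Real.exp 1 *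
      ∫ z in cube s a, ((∑ j, (2 * fn κ φ g j z + fd κ φ g j z)) +
          2 * n * (κ * ((8 * n + 1) * (2 * s))) ^ 2 * f0 κ φ g z) := by
    rw [← integral_const_mul]
    refine setIntegral_mono_on (hint hG1) ?_ (measurableSet_cube hs a) fun z hz => ?_
    · refine Integrable.const_mul (Integrable.add ?_ ?_) _
      · exact integrable_finsetSum _ fun j _ => (((int_fn hU hgc hφ hg j).integrableOn).const_mul
          _).add (int_fd hU hgc hφ hg j).integrableOn
      · exact ((int_f0 hU hgc hφ hg).integrableOn).const_mul _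
    · have h6 := hpsi z (hnear z hz)
      refine (pw2 hκ h2 h6.1 (hps z hz) (hg.differentiable (by simp) z) h6.2.2).trans
        (le_of_eq ?_)
      simp only [fn, fd, f0]
      rw [add_mul, Finset.sum_mul]
      congr 2
      · refine Finset.sum_congr rfl fun j _ => by ring
      · ring
  have i0 : 0 ≤ ∫ z in cube s a, ‖tw κ φ q g z‖ ^ 2 := integral_nonneg fun z => by positivity
  set I0 := ∫ z in cube s a, ‖tw κ φ q g z‖ ^ 2
  set I1 := ∫ z in cube s a, ‖fderiv ℝ (tw κ φ q g) z‖ ^ 2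
  set J := ∫ z in cube s a, ((∑ j, (2 * fn κ φ g j z + fd κ φ g j z)) +
          2 * n * (κ * ((8 * n + 1) * (2 * s))) ^ 2 * f0 κ φ g z)
  set L := ‖∫ z in cube s a, tw κ φ q g z‖ ^ 2
  have e1 : Real.pi ^ n * (2 * s) ^ (2 * n) = (4 * Real.pi) ^ n * s ^ (2 * n) := by
    rw [mul_pow, mul_pow, pow_mul 2 2 n]
    norm_num
    ring
  rw [e1] at hP
  have s3 : I0 ≤ 2 * (s ^ (2 * n))⁻¹ * L + 8 * s ^ 2 * (4 * Real.pi) ^ n * I1 := by
    have h7 : s ^ (2 * n) * I0 ≤
        s ^ (2 * n) * (2 * (s ^ (2 * n))⁻¹ * L + 8 * s ^ 2 * (4 * Real.pi) ^ n * I1) := by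
      calc _ ≤ _ := hP
        _ = 2 * L * (s ^ (2 * n) * (s ^ (2 * n))⁻¹) +
            s ^ (2 * n) * (8 * s ^ 2 * (4 * Real.pi) ^ n * I1) := by
            rw [mul_inv_cancel₀ hVpos.ne']; ring
        _ = _ := by ring
    exact le_of_mul_le_mul_left h7 hVpos
  have hpi := Real.pi_pos
  calc ∫ z in cube s a, f0 κ φ g z ≤ Real.exp 1 * I0 := s1
    _ ≤ Real.exp 1 * (2 * (s ^ (2 * n))⁻¹ * L +
        8 * s ^ 2 * (4 * Real.pi) ^ n * (2 * n * Real.exp 1 * J)) := by
        gcongr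
        refine s3.trans ?_
        gcongr
    _ = _ := by ring

end Vale.Agent.P284.H723
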