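import Vale.Agent.P284.H723.Cell

/-!
# P284, package FL : flat estimate with conditions
-/

open MeasureTheory Set Filter Topology Metric
open scoped ContDiff ENNReal ComplexConjugate ComplexOrder
open Vale.Agent.P272.K Vale.Agent.P272.K.INT Vale.Agent.P272.KOD
open Complex (I)

noncomputable section

namespace Vale.Agent.P284.H723

variable {n : ℕ}

/-- the condition attached to a cube -/
def hc (κ s : ℝ) (φ : Cm n → ℝ) (q : Cm n) (a : Fin n → ℤ × ℤ) : Cm n → ℂ :=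
  (cube s a).indicator fun z => Complex.exp (-((κ / 2 : ℝ) : ℂ) * hq φ q z)

theorem continuous_exp_hq {κ : ℝ} {φ : Cm n → ℝ} {q : Cm n} (h2 : ContDiffAt ℝ 2 φ q) :
    Continuous fun z => Complex.exp (-((κ / 2 : ℝ) : ℂ) * hq φ q z) :=
  Complex.continuous_exp.comp (continuous_const.mul (differentiable_hq h2).continuous)

theorem measurable_hc {κ s : ℝ} (hs : 0 < s) {φ : Cm n → ℝ} {q : Cm n} (h2 : ContDiffAt ℝ 2 φ q)
    (a : Fin n → ℤ × ℤ) : Measurable (hc κ s φ q a) :=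
  (continuous_exp_hq h2).measurable.indicator (measurableSet_cube hs a)

theorem bounded_hc {κ s : ℝ} (hs : 0 < s) {φ : Cm n → ℝ} {q : Cm n} (h2 : ContDiffAt ℝ 2 φ q)
    (a : Fin n → ℤ × ℤ) : ∃ M : ℝ, ∀ z, ‖hc κ s φ q a z‖ ≤ M := by
  obtain ⟨R, hR⟩ := (isBounded_cube (n := n) hs a).subset_closedBall 0
  obtain ⟨M, hM⟩ := (isCompact_closedBall (0 : Cm n) R).exists_bound_of_continuousOn
    (continuous_exp_hq (κ := κ) h2).continuousOn
  refine ⟨max M 0, fun z => ?_⟩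
  unfold hc
  by_cases h : z ∈ cube s a
  · rw [indicator_of_mem h]
    exact (hM z (hR h)).trans (le_max_left _ _)
  · rw [indicator_of_notMem h]
    simp

theorem integral_hc {κ s : ℝ} (hs : 0 < s) {φ : Cm n → ℝ} {q : Cm n} {g : Cm n → ℂ}
    (a : Fin n → ℤ × ℤ) : ∫ z, g z * hc κ s φ q a z = ∫ z in cube s a, tw κ φ q g z := by
  rw [← integral_indicator (measurableSet_cube hs a)]
  refine integral_congr_ae (ae_of_all _ fun z => ?_)
  show g z * hc κ s φ q a z = (cube s a).indicator (tw κ φ q g) z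
  by_cases h : z ∈ cube s a
  · simp [hc, tw, indicator_of_mem h]
  · simp [hc, indicator_of_notMem h]

/-- the first constant -/
def c1 (n : ℕ) : ℝ := 16 * n * Real.exp 1 ^ 2 * (4 * Real.pi) ^ n

/-- the second constant -/
def c2 (n : ℕ) : ℝ := 4 * n + 8 * n * (8 * n + 1) ^ 2

/-- the square of the scale -/
def eta (n : ℕ) (K₀ : ℝ) : ℝ := (1 + 2 * c1 n * c2 n + 6 * c1 n * K₀ + 4 * (8 * n + 1))⁻¹

theorem c1_nonneg (n : ℕ) : 0 ≤ c1 n := by
  have := Real.pi_pos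
  unfold c1
  positivity

theorem c2_nonneg (n : ℕ) : 0 ≤ c2 n := by
  unfold c2
  positivity

section

variable {K₀ : ℝ} (hK : 0 < K₀)

include hK

theorem eta_den_pos (n : ℕ) :
    0 < 1 + 2 * c1 n * c2 n + 6 * c1 n * K₀ + 4 * (8 * (n : ℝ) + 1) := by
  have h1 := c1_nonneg n
  have h2 := c2_nonneg n
  have h3 : 0 ≤ c1 n * c2 n := by positivity
  have h4 : 0 ≤ c1 n * K₀ := by positivity
  have h5 : (0 : ℝ) ≤ n := by positivity
  nlinarith

theorem eta_pos (n : ℕ) : 0 < eta n K₀ := inv_pos.2 (eta_den_pos hK n)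

theorem eta_facts (n : ℕ) : eta n K₀ ≤ 1 ∧ c1 n * c2 n * eta n K₀ ≤ 1 / 2 ∧
    6 * c1 n * K₀ * eta n K₀ ≤ 1 ∧ 4 * (8 * n + 1) * eta n K₀ ≤ 1 := by
  have h0 := eta_pos hK n
  have h1 := c1_nonneg n
  have h2 := c2_nonneg n
  have h3 : 0 ≤ c1 n * c2 n := by positivity
  have h4 : 0 ≤ c1 n * K₀ := by positivity
  have h5 : (0 : ℝ) ≤ n := by positivity
  have h6 : (1 + 2 * c1 n * c2 n + 6 * c1 n * K₀ + 4 * (8 * (n : ℝ) + 1)) * eta n K₀ = 1 :=
    mul_inv_cancel₀ (eta_den_pos hK n).ne'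
  have h7 : 0 ≤ c1 n * c2 n * eta n K₀ := by positivity
  have h8 : 0 ≤ c1 n * K₀ * eta n K₀ := by positivity
  have h9 : 0 ≤ n * eta n K₀ := by positivity
  refine ⟨?_, ?_, ?_, ?_⟩ <;> nlinarith

end

/-- the total of the error terms -/
theorem est_R {k c : ℝ} {φ : Cm n → ℝ} {g : Cm n → ℂ} {U : Set (Cm n)} (hgU : tsupport g ⊆ U)
    (hgc : HasCompactSupport g) (hφ' : ∀ z ∈ U, ContDiffAt ℝ ∞ φ z) (hg : ContDiff ℝ ∞ g)
    (hk : 0 ≤ k) (hb : ∀ z ∈ U, (2 • (1 : Matrix (Fin n) (Fin n) ℂ) - cHess φ z).PosSemidef)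
    (hcle : c ≤ 8 * n * (8 * n + 1) ^ 2 * k) :
    ∫ z, ((∑ j, (2 * fn k φ g j z + fd k φ g j z)) + c * f0 k φ g z) ≤
      3 * (∑ j, ∫ z, fd k φ g j z) + c2 n * k * ∫ z, f0 k φ g z := by
  set A := ∫ z, f0 k φ g z with hA
  set B := ∑ j, ∫ z, fd k φ g j z with hB
  have hA0 : 0 ≤ A := integral_nonneg fun z => by unfold f0; positivity
  have t4 : ∫ z, ((∑ j, (2 * fn k φ g j z + fd k φ g j z)) + c * f0 k φ g z) =
      2 * (∑ j, ∫ z, fn k φ g j z) + B + c * A := by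
    have i1 : ∀ j ∈ (Finset.univ : Finset (Fin n)),
        Integrable (fun z => 2 * fn k φ g j z + fd k φ g j z) := fun j _ =>
      ((int_fn hgU hgc hφ' hg j).const_mul _).add (int_fd hgU hgc hφ' hg j)
    have i2 : Integrable (fun z => ∑ j, (2 * fn k φ g j z + fd k φ g j z)) :=
      integrable_finsetSum _ i1
    rw [integral_add i2 ((int_f0 hgU hgc hφ' hg).const_mul _), integral_const_mul,
      integral_finsetSum _ i1, ← hA]
    congr 1
    rw [hB, Finset.mul_sum, ← Finset.sum_add_distrib]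
    refine Finset.sum_congr rfl fun j _ => ?_
    rw [integral_add ((int_fn hgU hgc hφ' hg j).const_mul _) (int_fd hgU hgc hφ' hg j),
      integral_const_mul]
  have t5 : ∑ j, ∫ z, fn k φ g j z ≤ B + 2 * n * k * A := by
    have h1 : ∑ j, ∫ z, fn k φ g j z ≤ ∑ j, ((∫ z, fd k φ g j z) + 2 * k * A) :=
      Finset.sum_le_sum fun j _ => sum_fn_le hgU hgc hφ' hg hk hb j
    refine h1.trans (le_of_eq ?_)
    rw [Finset.sum_add_distrib, ← hB]
    simp
    ring
  rw [t4]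
  have h1 : c * A ≤ 8 * n * (8 * n + 1) ^ 2 * k * A := by gcongr
  unfold c2
  nlinarith

/-- the last computation -/
theorem final_alg {A B L V K₀ k c d η : ℝ} (hA0 : 0 ≤ A) (hB0 : 0 ≤ B) (hk : 0 < k)
    (hK : 0 < K₀) (h2 : c * d * η ≤ 1 / 2) (h3 : 6 * c * K₀ * η ≤ 1)
    (t7 : A ≤ 2 * Real.exp 1 * V⁻¹ * L + c * (η / k) * (3 * B + d * k * A)) :
    K₀ * k * A ≤ B + 2 * K₀ * k * (2 * Real.exp 1 * V⁻¹) * L := by
  have t8 : c * (η / k) * (3 * B + d * k * A) = 3 * c * η * B / k + c * d * η * A := by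
    field_simp
  rw [t8] at t7
  have t9 : c * d * η * A ≤ 1 / 2 * A := mul_le_mul_of_nonneg_right h2 hA0
  have t10 : A ≤ 2 * (2 * Real.exp 1 * V⁻¹ * L) + 6 * c * η * B / k := by
    have : 6 * c * η * B / k = 2 * (3 * c * η * B / k) := by ring
    rw [this]
    linarith
  calc K₀ * k * A ≤ K₀ * k * (2 * (2 * Real.exp 1 * V⁻¹ * L) + 6 * c * η * B / k) := by gcongr
    _ = 6 * c * K₀ * η * B + 2 * K₀ * k * (2 * Real.exp 1 * V⁻¹) * L := by field_simp; ring
    _ ≤ 1 * B + 2 * K₀ * k * (2 * Real.exp 1 * V⁻¹) * L := by gcongr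
    _ = _ := by ring

theorem FL (hn : 1 ≤ n) {K₀ : ℝ} (hK : 0 < K₀) : ∃ C : ℝ, 0 < C ∧
  ∀ (P U : Set (Cm n)) (φ : Cm n → ℝ), IsCompact P → 0 < volume P → IsOpen U → P ⊆ U →
    ContDiffOn ℝ ∞ φ U →
    (∀ z ∈ U, (2 • (1 : Matrix (Fin n) (Fin n) ℂ) - cHess φ z).PosSemidef ∧
      (2 • (1 : Matrix (Fin n) (Fin n) ℂ) + cHess φ z).PosSemidef) →
    ∃ k₀ : ℕ, ∀ k : ℕ, k₀ ≤ k → ∃ (N : ℕ) (h : Fin N → Cm n → ℂ) (K : ℝ),
      (N : ℝ) ≤ C * (k : ℝ) ^ n * (volume P).toReal ∧ 0 ≤ K ∧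
      (∀ j, Measurable (h j)) ∧ (∀ j, ∃ M : ℝ, ∀ z, ‖h j z‖ ≤ M) ∧
      ∀ g : Cm n → ℂ, ContDiff ℝ ∞ g → tsupport g ⊆ P →
        K₀ * k * (∫ z, ‖g z‖ ^ 2 * Real.exp (-(k * φ z))) ≤
          (∫ z, (∑ j, ‖dzb j g z‖ ^ 2) * Real.exp (-(k * φ z))) +
            K * ∑ j, ‖∫ z, g z * h j z‖ ^ 2 := by
  classical
  set η := eta n K₀ with hη
  have hη0 : 0 < η := eta_pos hK n
  obtain ⟨hη1, hη2, hη3, hη4⟩ := eta_facts hK n
  refine ⟨2 * (η ^ n)⁻¹, by positivity, fun P U φ hP hPpos hU hPU hφ hb => ?_⟩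
  have hφ' : ∀ z ∈ U, ContDiffAt ℝ ∞ φ z := fun z hz => hφ.contDiffAt (hU.mem_nhds hz)
  obtain ⟨δ, hδ, hloc⟩ := exists_unif hP hU hPU hφ
  have hPfin : volume P < ⊤ := hP.measure_lt_top
  have hPr : 0 < volume.real P := ENNReal.toReal_pos hPpos.ne' hPfin.ne
  -- the scale
  have hlim : Tendsto (fun k : ℕ => Real.sqrt (η / k)) atTop (𝓝 0) := by
    have h1 : Tendsto (fun k : ℕ => η / (k : ℝ)) atTop (𝓝 0) :=
      tendsto_const_div_atTop_nhds_zero_nat η
    have h2 := (Real.continuous_sqrt.tendsto 0).comp h1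
    rwa [Real.sqrt_zero] at h2
  have hlim2 : Tendsto (fun k : ℕ => 2 * Real.sqrt (η / k)) atTop (𝓝 0) := by
    simpa using hlim.const_mul 2
  have hvol : ∀ᶠ k : ℕ in atTop,
      volume.real (cthickening (2 * Real.sqrt (η / k)) P) < 2 * volume.real P := by
    have h1 := (tendsto_measure_cthickening_of_isCompact (μ := volume) hP).comp hlim2
    have h2 : volume P < ENNReal.ofReal (2 * volume.real P) := by
      rw [← ofReal_measureReal hPfin.ne]
      exact (ENNReal.ofReal_lt_ofReal_iff (by positivity)).2 (by linarith)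
    filter_upwards [h1.eventually_lt_const h2] with k hk
    have h3 : volume (cthickening (2 * Real.sqrt (η / k)) P) < ENNReal.ofReal (2 * volume.real P) :=
      hk
    rw [Measure.real]
    have h4 := (ENNReal.toReal_lt_toReal (h3.trans_le le_top).ne ENNReal.ofReal_ne_top).2 h3
    rwa [ENNReal.toReal_ofReal (by positivity)] at h4
  have hev := (hvol.and (hlim2.eventually_le_const hδ)).and (eventually_ge_atTop 1)
  obtain ⟨k₀, hk₀⟩ := eventually_atTop.1 hev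
  refine ⟨k₀, fun k hk => ?_⟩
  obtain ⟨⟨hv, hsδ⟩, hk1⟩ := hk₀ k hk
  have hkpos : (0 : ℝ) < k := by exact_mod_cast hk1
  set s := Real.sqrt (η / k) with hs
  have hspos : 0 < s := Real.sqrt_pos.2 (by positivity)
  have hs2 : s ^ 2 = η / k := Real.sq_sqrt (by positivity)
  have hs2n : s ^ (2 * n) = η ^ n / k ^ n := by rw [pow_mul, hs2, div_pow]
  -- the cubes
  set T : Finset (Fin n → ℤ × ℤ) := (finite_idx hspos hP.isBounded).toFinset with hT
  have hTm : ∀ a, a ∈ T ↔ a ∈ idx s '' P := fun a => Set.Finite.mem_toFinset _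
  have hcard := card_idx_le hspos hP.isBounded T fun a ha => (hTm a).1 ha
  have hch : ∀ a, ∃ q, a ∈ T → q ∈ P ∧ q ∈ cube s a := by
    intro a
    by_cases ha : a ∈ T
    · obtain ⟨q, hq, hqa⟩ := (hTm a).1 ha
      exact ⟨q, fun _ => ⟨hq, hqa⟩⟩
    · exact ⟨0, fun h => absurd h ha⟩
  choose q hq using hch
  have hq2 : ∀ a ∈ T, ContDiffAt ℝ 2 φ (q a) := fun a ha =>
    (hφ' _ (hPU (hq a ha).1)).of_le (by norm_cast)
  refine ⟨T.card, fun j => hc k s φ (q (T.equivFin.symm j).1) (T.equivFin.symm j).1,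
    2 * K₀ * k * (2 * Real.exp 1 * (s ^ (2 * n))⁻¹), ?_, by positivity, fun j => ?_, fun j => ?_,
    fun g hg hgP => ?_⟩
  · -- the number of conditions
    have h1 : (T.card : ℝ) * s ^ (2 * n) ≤ 2 * volume.real P := hcard.trans hv.le
    rw [hs2n] at h1
    have hηn : 0 < η ^ n := by positivity
    have hkn : (0 : ℝ) < (k : ℝ) ^ n := by positivity
    rw [mul_div_assoc', div_le_iff₀ hkn] at h1
    rw [mul_comm (2 : ℝ), ← div_eq_inv_mul]
    have h2 : (T.card : ℝ) ≤ 2 * volume.real P * k ^ n / η ^ n := (le_div_iff₀ hηn).2 h1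
    refine h2.trans (le_of_eq ?_)
    rw [Measure.real]
    ring
  · exact measurable_hc hspos (hq2 _ (T.equivFin.symm j).2) _
  · exact bounded_hc hspos (hq2 _ (T.equivFin.symm j).2) _
  · -- the estimate
    have hgU : tsupport g ⊆ U := hgP.trans hPU
    have hgc : HasCompactSupport g := hP.of_isClosed_subset (isClosed_tsupport g) hgP
    have e0 : ∑ j : Fin T.card, ‖∫ z, g z * hc k s φ (q (T.equivFin.symm j).1)
        (T.equivFin.symm j).1 z‖ ^ 2 = ∑ a ∈ T, ‖∫ z in cube s a, tw k φ (q a) g z‖ ^ 2 := by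
      simp only [integral_hc hspos]
      rw [Equiv.sum_comp T.equivFin.symm
        (fun a : T => ‖∫ z in cube s a.1, tw k φ (q a.1) g z‖ ^ 2)]
      exact Finset.sum_coe_sort T fun a => ‖∫ z in cube s a, tw k φ (q a) g z‖ ^ 2
    rw [e0]
    set L := ∑ a ∈ T, ‖∫ z in cube s a, tw k φ (q a) g z‖ ^ 2 with hL
    set A := ∫ z, f0 k φ g z with hA
    set B := ∑ j, ∫ z, fd k φ g j z with hB
    have eB : ∫ z, (∑ j, ‖dzb j g z‖ ^ 2) * Real.exp (-(k * φ z)) = B := by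
      rw [hB, ← integral_finsetSum _ fun j _ => int_fd hgU hgc hφ' hg j]
      refine integral_congr_ae (ae_of_all _ fun z => ?_)
      simp only [fd, Finset.sum_mul]
    rw [eB]
    change K₀ * k * A ≤ B + _ * L
    have hA0 : 0 ≤ A := integral_nonneg fun z => by unfold f0; positivity
    have hB0 : 0 ≤ B := Finset.sum_nonneg fun j _ =>
      integral_nonneg fun z => by unfold fd; positivity
    have hL0 : 0 ≤ L := Finset.sum_nonneg fun a _ => by positivity
    -- the estimate in each cube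
    set c := 2 * n * (k * ((8 * n + 1) * (2 * s))) ^ 2 with hc
    set Rf : Cm n → ℝ := fun z => (∑ j, (2 * fn k φ g j z + fd k φ g j z)) + c * f0 k φ g z
      with hRf
    have hcell : ∀ a ∈ T, ∫ z in cube s a, f0 k φ g z ≤
        2 * Real.exp 1 * (s ^ (2 * n))⁻¹ * ‖∫ z in cube s a, tw k φ (q a) g z‖ ^ 2 +
          c1 n * s ^ 2 * ∫ z in cube s a, Rf z := by
      intro a ha
      refine cell hspos hkpos.le (hq a ha).2 hgU hgc hφ' hg (hq2 a ha) (fun z hz => ?_) ?_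
      · have h1 := hloc (q a) (hq a ha).1 z (hz.trans hsδ)
        have hdz : DifferentiableAt ℝ φ z := (hφ' z h1.1).differentiableAt (by simp)
        have hbq := hb (q a) (hPU (hq a ha).1)
        have h2 := fderiv_psi_le (hq2 a ha) hdz h1.2 hbq.1 hbq.2
        exact ⟨hdz, h2.1, h2.2.trans (by gcongr)⟩
      · have h1 : (k : ℝ) * ((8 * n + 1) * (2 * s) * (2 * s)) = 4 * (8 * n + 1) * (k * s ^ 2) := by
          ring
        rw [h1, hs2, mul_div_cancel₀ _ hkpos.ne']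
        exact hη4
    have hintR : Integrable Rf := by
      refine Integrable.add ?_ ?_
      · exact integrable_finsetSum _ fun j _ => ((int_fn hgU hgc hφ' hg j).const_mul
          _).add (int_fd hgU hgc hφ' hg j)
      · exact (int_f0 hgU hgc hφ' hg).const_mul _
    have hz0 : ∀ z, z ∉ P → f0 k φ g z = 0 := by
      intro z hz
      have : g z = 0 := image_eq_zero_of_notMem_tsupport fun h => hz (hgP h)
      simp [f0, this]
    have hz1 : ∀ z, z ∉ P → Rf z = 0 := by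
      intro z hz
      have hz' : z ∉ tsupport g := fun h => hz (hgP h)
      have h1 : ∀ j, fn k φ g j z = 0 ∧ fd k φ g j z = 0 := by
        intro j
        have := (ev_nz (χ := fun y => k * φ y) hz' j).self_of_nhds
        simp [fn, fd, this.1, this.2.1]
      simp [hRf, hz0 z hz, h1]
    have hTP : ∀ z ∈ P, idx s z ∈ T := fun z hz => (hTm _).2 ⟨z, hz, rfl⟩
    have t1 : A = ∑ a ∈ T, ∫ z in cube s a, f0 k φ g z :=
      integral_eq_sum hspos T hTP (int_f0 hgU hgc hφ' hg) hz0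
    have t2 : ∫ z, Rf z = ∑ a ∈ T, ∫ z in cube s a, Rf z :=
      integral_eq_sum hspos T hTP hintR hz1
    have t3 : A ≤ 2 * Real.exp 1 * (s ^ (2 * n))⁻¹ * L + c1 n * s ^ 2 * ∫ z, Rf z := by
      rw [t1, t2, hL, Finset.mul_sum, Finset.mul_sum, ← Finset.sum_add_distrib]
      exact Finset.sum_le_sum hcell
    have hc1 := c1_nonneg n
    have hcle : c ≤ 8 * n * (8 * n + 1) ^ 2 * k := by
      have h1 : c = 8 * n * (8 * n + 1) ^ 2 * (k * (k * s ^ 2)) := by rw [hc]; ring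
      rw [h1, hs2, mul_div_cancel₀ _ hkpos.ne']
      have h2 : (k : ℝ) * η ≤ k := by nlinarith
      gcongr
    have t6 : ∫ z, Rf z ≤ 3 * B + c2 n * k * A :=
      est_R hgU hgc hφ' hg hkpos.le (fun z hz => (hb z hz).1) hcle
    have t7 : A ≤ 2 * Real.exp 1 * (s ^ (2 * n))⁻¹ * L +
        c1 n * (η / k) * (3 * B + c2 n * k * A) := by
      rw [← hs2]
      refine t3.trans ?_
      gcongr
    exact final_alg hA0 hB0 hkpos hK hη2 hη3 t7

end Vale.Agent.P284.H723
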