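import Vale.Agent.P272.K.INT.Wirt

/-!
# P284, package FL : integration by parts (`∇` and `∂̄`)
-/

open MeasureTheory Set Filter Topology Metric
open scoped ContDiff ENNReal ComplexConjugate
open Vale.Agent.P272.K Vale.Agent.P272.K.INT

noncomputable section

namespace Vale.Agent.P284.H723

variable {n : ℕ}

theorem dz_cexp {f : Cm n → ℂ} {z : Cm n} (hf : DifferentiableAt ℝ f z) (j : Fin n) :
    dz j (fun w => Complex.exp (f w)) z = Complex.exp (f z) * dz j f z := by
  have h : fderiv ℝ (fun w => Complex.exp (f w)) z = Complex.exp (f z) • fderiv ℝ f z :=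
    hf.hasFDerivAt.cexp.fderiv
  simp only [dz, h, smul_apply, smul_eq_mul]
  ring

theorem dzb_cexp {f : Cm n → ℂ} {z : Cm n} (hf : DifferentiableAt ℝ f z) (j : Fin n) :
    dzb j (fun w => Complex.exp (f w)) z = Complex.exp (f z) * dzb j f z := by
  have h : fderiv ℝ (fun w => Complex.exp (f w)) z = Complex.exp (f z) • fderiv ℝ f z :=
    hf.hasFDerivAt.cexp.fderiv
  simp only [dzb, h, smul_apply, smul_eq_mul]
  ring

/-- `∇_j g = ∂_j g - (∂_j χ) g` -/
def nab (χ : Cm n → ℝ) (j : Fin n) (g : Cm n → ℂ) (z : Cm n) : ℂ :=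
  dz j g z - dz j (fun y => (χ y : ℂ)) z * g z

theorem conj_dz_real {χ : Cm n → ℝ} (j : Fin n) (z : Cm n) :
    conj (dz j (fun y => (χ y : ℂ)) z) = dzb j (fun y => (χ y : ℂ)) z := by
  rw [← dzb_conj]
  simp only [Complex.conj_ofReal]

theorem cd_ofReal {χ : Cm n → ℝ} {z : Cm n} (hχ : ContDiffAt ℝ ∞ χ z) :
    ContDiffAt ℝ ∞ (fun y => (χ y : ℂ)) z :=
  Complex.ofRealCLM.contDiff.contDiffAt.comp z hχ

theorem cd_conj {g : Cm n → ℂ} {z : Cm n} (hg : ContDiffAt ℝ ∞ g z) :
    ContDiffAt ℝ ∞ (fun y => conj (g y)) z :=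
  Complex.conjCLE.contDiff.contDiffAt.comp z hg

theorem cd_nab {χ : Cm n → ℝ} {g : Cm n → ℂ} {z : Cm n} (hχ : ContDiffAt ℝ ∞ χ z)
    (hg : ContDiffAt ℝ ∞ g z) (j : Fin n) : ContDiffAt ℝ ∞ (nab χ j g) z :=
  (smooth_dz hg).sub ((smooth_dz (cd_ofReal hχ)).mul hg)

theorem cd_E {χ : Cm n → ℝ} {z : Cm n} (hχ : ContDiffAt ℝ ∞ χ z) :
    ContDiffAt ℝ ∞ (fun y => Complex.exp (-(χ y : ℂ))) z :=
  (cd_ofReal hχ).neg.cexp

/-- the pointwise identity -/
theorem nab_identity {χ : Cm n → ℝ} {g : Cm n → ℂ} {z : Cm n} (hχ : ContDiffAt ℝ ∞ χ z)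
    (hg : ContDiffAt ℝ ∞ g z) (j : Fin n) :
    dzb j (fun y => nab χ j g y * conj (g y) * Complex.exp (-(χ y : ℂ))) z -
      dz j (fun y => dzb j g y * conj (g y) * Complex.exp (-(χ y : ℂ))) z =
    (nab χ j g z * conj (nab χ j g z) - dz j (dzb j fun y => (χ y : ℂ)) z * (g z * conj (g z)) -
      dzb j g z * conj (dzb j g z)) * Complex.exp (-(χ z : ℂ)) := by
  have t : ∀ {f : Cm n → ℂ}, ContDiffAt ℝ ∞ f z → DifferentiableAt ℝ f z :=
    fun h => h.differentiableAt (by simp)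
  have hc := cd_ofReal hχ
  have e1 := cd_E hχ
  have e2 := cd_conj hg
  have e3 := cd_nab hχ hg j
  rw [dzb_mul (t (e3.mul e2)) (t e1), dzb_mul (t e3) (t e2), dzb_conj,
    dz_mul (t ((smooth_dzb hg).mul e2)) (t e1), dz_mul (t (smooth_dzb hg)) (t e2), dz_conj,
    dzb_cexp (t hc.neg), dz_cexp (t hc.neg), dz_neg, dzb_neg]
  have e4 : dzb j (nab χ j g) z = dzb j (dz j g) z -
      (dzb j (dz j fun y => (χ y : ℂ)) z * g z + dz j (fun y => (χ y : ℂ)) z * dzb j g z) := by
    unfold nab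
    rw [dzb_sub (t (smooth_dz hg)) (t ((smooth_dz hc).mul hg)), dzb_mul (t (smooth_dz hc)) (t hg)]
  have e5 : dzb j (dz j g) z = dz j (dzb j g) z := (dz_dzb_comm (hg.of_le (by norm_cast))).symm
  have e6 : dzb j (dz j fun y => (χ y : ℂ)) z = dz j (dzb j fun y => (χ y : ℂ)) z :=
    (dz_dzb_comm (hc.of_le (by norm_cast))).symm
  have e7 : conj (nab χ j g z) = conj (dz j g z) - dzb j (fun y => (χ y : ℂ)) z * conj (g z) := by
    unfold nab
    rw [map_sub, map_mul, conj_dz_real]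
  rw [e4, e5, e6, e7]
  unfold nab
  ring

theorem cd_cut {g F : Cm n → ℂ} {U : Set (Cm n)} (hU : tsupport g ⊆ U)
    (h0 : ∀ z, z ∉ tsupport g → F =ᶠ[𝓝 z] fun _ => 0)
    (hF : ∀ z ∈ U, ContDiffAt ℝ ∞ F z) : ContDiff ℝ ∞ F := by
  rw [contDiff_iff_contDiffAt]
  intro z
  by_cases h : z ∈ tsupport g
  · exact hF z (hU h)
  · exact contDiffAt_const.congr_of_eventuallyEq (h0 z h)

/-- functions which vanish off the support of `g` -/
theorem ev_zero {g : Cm n → ℂ} {z : Cm n} (hz : z ∉ tsupport g) :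
    g =ᶠ[𝓝 z] fun _ => 0 := by
  filter_upwards [notMem_tsupport_iff_eventuallyEq.mp hz] with y hy
  simpa using hy

theorem hcs_of {g F : Cm n → ℂ} (hg : HasCompactSupport g)
    (h0 : ∀ z, z ∉ tsupport g → F =ᶠ[𝓝 z] fun _ => 0) : HasCompactSupport F := by
  refine HasCompactSupport.of_support_subset_isCompact (K := tsupport g) hg fun z hz => ?_
  by_contra h
  exact hz (h0 z h).self_of_nhds

/-- **Integration by parts**: `‖∇_j g‖² = ‖∂̄_j g‖² + ∫ χ_{j j̄} |g|²`. -/
theorem ibp {χ : Cm n → ℝ} {g : Cm n → ℂ} {U : Set (Cm n)} (hU : tsupport g ⊆ U)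
    (hgc : HasCompactSupport g) (hχ : ∀ z ∈ U, ContDiffAt ℝ ∞ χ z) (hg : ContDiff ℝ ∞ g)
    (j : Fin n) :
    ∫ z, ‖nab χ j g z‖ ^ 2 * Real.exp (-χ z) =
      (∫ z, ‖dzb j g z‖ ^ 2 * Real.exp (-χ z)) +
        ∫ z, (cHess χ z j j).re * ‖g z‖ ^ 2 * Real.exp (-χ z) := by
  have hg' : ∀ z, ContDiffAt ℝ ∞ g z := fun z => hg.contDiffAt
  set F1 : Cm n → ℂ := fun y => nab χ j g y * conj (g y) * Complex.exp (-(χ y : ℂ)) with hF1
  set F2 : Cm n → ℂ := fun y => dzb j g y * conj (g y) * Complex.exp (-(χ y : ℂ)) with hF2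
  have z1 : ∀ z, z ∉ tsupport g → F1 =ᶠ[𝓝 z] fun _ => 0 := by
    intro z hz
    filter_upwards [ev_zero hz] with y hy
    simp [hF1, hy]
  have z2 : ∀ z, z ∉ tsupport g → F2 =ᶠ[𝓝 z] fun _ => 0 := by
    intro z hz
    filter_upwards [ev_zero hz] with y hy
    simp [hF2, hy]
  have c1 : ContDiff ℝ ∞ F1 := cd_cut hU z1 fun z hz =>
    ((cd_nab (hχ z hz) (hg' z) j).mul (cd_conj (hg' z))).mul (cd_E (hχ z hz))
  have c2 : ContDiff ℝ ∞ F2 := cd_cut hU z2 fun z hz =>
    ((smooth_dzb (hg' z)).mul (cd_conj (hg' z))).mul (cd_E (hχ z hz))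
  have s1 := hcs_of hgc z1
  have s2 := hcs_of hgc z2
  have i1 := integral_dzb_eq_zero (c1.of_le (by norm_cast)) s1 j
  have i2 := integral_dz_eq_zero (c2.of_le (by norm_cast)) s2 j
  -- the three functions
  set A : Cm n → ℝ := fun z => ‖nab χ j g z‖ ^ 2 * Real.exp (-χ z) with hA
  set B : Cm n → ℝ := fun z => ‖dzb j g z‖ ^ 2 * Real.exp (-χ z) with hB
  set C : Cm n → ℝ := fun z => (cHess χ z j j).re * ‖g z‖ ^ 2 * Real.exp (-χ z) with hC
  have nz : ∀ z, z ∉ tsupport g → ∀ᶠ y in 𝓝 z, nab χ j g y = 0 ∧ dzb j g y = 0 ∧ g y = 0 := by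
    intro z hz
    filter_upwards [(ev_zero hz).eventuallyEq_nhds] with y hy
    have h1 : g y = 0 := hy.self_of_nhds
    refine ⟨?_, ?_, h1⟩
    · unfold nab
      rw [dz_congr hy, h1]; simp
    · rw [dzb_congr hy]; simp
  have hint : ∀ {f : Cm n → ℝ}, (∀ z ∈ U, ContinuousAt f z) →
      (∀ z, z ∉ tsupport g → f =ᶠ[𝓝 z] fun _ => 0) → Integrable f := by
    intro f h1 h2
    refine Continuous.integrable_of_hasCompactSupport ?_ ?_
    · rw [continuous_iff_continuousAt]
      intro z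
      by_cases h : z ∈ tsupport g
      · exact h1 z (hU h)
      · exact continuousAt_const.congr (h2 z h).symm
    · refine HasCompactSupport.of_support_subset_isCompact (K := tsupport g) hgc fun z hz => ?_
      by_contra h
      exact hz (h2 z h).self_of_nhds
  have hAi : Integrable A := hint (fun z hz => ((cd_nab (hχ z hz) (hg' z) j).continuousAt.norm.pow
      2).mul ((hχ z hz).continuousAt.neg.rexp)) fun z hz => by
    filter_upwards [nz z hz] with y hy
    simp [hA, hy.1]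
  have hBi : Integrable B := hint (fun z hz => ((smooth_dzb (hg' z)).continuousAt.norm.pow
      2).mul ((hχ z hz).continuousAt.neg.rexp)) fun z hz => by
    filter_upwards [nz z hz] with y hy
    simp [hB, hy.2.1]
  have hCi : Integrable C := hint (fun z hz => ((Complex.continuous_re.continuousAt.comp
      (smooth_dz (smooth_dzb (cd_ofReal (hχ z hz)))).continuousAt).mul
      ((hg' z).continuousAt.norm.pow 2)).mul ((hχ z hz).continuousAt.neg.rexp)) fun z hz => by
    filter_upwards [nz z hz] with y hy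
    simp [hC, hy.2.2]
  have key : ∀ z, (dzb j F1 z - dz j F2 z).re = A z - B z - C z := by
    intro z
    by_cases h : z ∈ tsupport g
    · rw [hF1, hF2, nab_identity (hχ z (hU h)) (hg' z) j]
      have e1 : Complex.exp (-(χ z : ℂ)) = ((Real.exp (-χ z) : ℝ) : ℂ) := by
        rw [Complex.ofReal_exp]; simp
      have e2 : ∀ w : ℂ, w * conj w = ((‖w‖ ^ 2 : ℝ) : ℂ) := fun w => by
        rw [Complex.mul_conj, Complex.normSq_eq_norm_sq]
      rw [e1, e2, e2, e2, Complex.re_mul_ofReal, Complex.sub_re, Complex.sub_re, Complex.ofReal_re,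
        Complex.ofReal_re, Complex.re_mul_ofReal]
      simp only [hA, hB, hC, cHess, Matrix.of_apply]
      ring
    · have h1 := (nz z h).self_of_nhds
      rw [dzb_congr (z1 z h), dz_congr (z2 z h)]
      simp [hA, hB, hC, h1.1, h1.2.1, h1.2.2]
  have d1 : Integrable (dzb j F1) := by
    refine Continuous.integrable_of_hasCompactSupport ?_ ?_
    · exact continuous_iff_continuousAt.2 fun z => (smooth_dzb c1.contDiffAt).continuousAt
    · refine HasCompactSupport.of_support_subset_isCompact (K := tsupport g) hgc fun z hz => ?_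
      by_contra h
      exact hz (by rw [dzb_congr (z1 z h)]; simp)
  have d2 : Integrable (dz j F2) := by
    refine Continuous.integrable_of_hasCompactSupport ?_ ?_
    · exact continuous_iff_continuousAt.2 fun z => (smooth_dz c2.contDiffAt).continuousAt
    · refine HasCompactSupport.of_support_subset_isCompact (K := tsupport g) hgc fun z hz => ?_
      by_contra h
      exact hz (by rw [dz_congr (z2 z h)]; simp)
  have tot : ∫ z, (A z - B z - C z) = 0 := by
    have h1 : ∫ z, (dzb j F1 z - dz j F2 z) = 0 := by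
      rw [integral_sub d1 d2, i1, i2, sub_zero]
    have h2 : ∫ z, (dzb j F1 z - dz j F2 z).re = (∫ z, (dzb j F1 z - dz j F2 z)).re :=
      integral_re (𝕜 := ℂ) (d1.sub d2)
    simp only [key] at h2
    rw [h2, h1]
    simp
  have hAB : Integrable (fun z => A z - B z) := hAi.sub hBi
  rw [integral_sub hAB hCi, integral_sub hAi hBi] at tot
  linarith

end Vale.Agent.P284.H723
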