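import Vale.Agent.P272.KOD.PeakA
import Vale.Agent.P284.H723.Ibp

/-!
# P284, package FL : the weight near a point
-/

open MeasureTheory Set Filter Topology Metric
open scoped ContDiff ENNReal ComplexConjugate ComplexOrder
open Vale.Agent.P272.K Vale.Agent.P272.K.INT Vale.Agent.P272.KOD
open Complex (I)

noncomputable section

namespace Vale.Agent.P284.H723

variable {n : ℕ}

theorem norm_Ismul (u : Cm n) : ‖I • u‖ = ‖u‖ := by rw [norm_smul, Complex.norm_I, one_mul]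

theorem polar_bound {B : N.Bil n} (hB : ∀ v w, B v w = B w v) {c : ℝ}
    (h : ∀ u, |B u u + B (I • u) (I • u)| ≤ c * ‖u‖ ^ 2) (u v : Cm n) :
    |B u v + B (I • u) (I • v)| ≤ 2 * c * (‖u‖ * ‖v‖) := by
  have h1 : ∀ u v : Cm n, |B u v + B (I • u) (I • v)| ≤ c * (‖u‖ + ‖v‖) ^ 2 / 2 := by
    intro u v
    have e : 4 * (B u v + B (I • u) (I • v)) =
        (B (u + v) (u + v) + B (I • (u + v)) (I • (u + v))) -
          (B (u - v) (u - v) + B (I • (u - v)) (I • (u - v))) := by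
      simp only [smul_add, smul_sub, map_add, map_sub, add_apply, sub_apply]
      rw [hB v u, hB (I • v) (I • u)]
      ring
    have h2 := h (u + v)
    have h3 := h (u - v)
    have hc : 0 ≤ c ∨ ‖u + v‖ = 0 := by
      by_cases h0 : ‖u + v‖ = 0
      · exact Or.inr h0
      · left
        have h5 : 0 < ‖u + v‖ ^ 2 := by positivity
        have h6 := (abs_nonneg _).trans h2
        exact nonneg_of_mul_nonneg_left h6 h5
    have h4 : ‖u + v‖ ≤ ‖u‖ + ‖v‖ := norm_add_le _ _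
    have h5 : ‖u - v‖ ≤ ‖u‖ + ‖v‖ := norm_sub_le _ _
    by_cases hc0 : 0 ≤ c
    · have h6 : c * ‖u + v‖ ^ 2 ≤ c * (‖u‖ + ‖v‖) ^ 2 := by gcongr
      have h7 : c * ‖u - v‖ ^ 2 ≤ c * (‖u‖ + ‖v‖) ^ 2 := by gcongr
      rw [abs_le] at h2 h3 ⊢
      constructor <;> linarith [h2.1, h2.2, h3.1, h3.2]
    · have hz : ∀ w : Cm n, w = 0 := by
        intro w
        by_contra hw
        have h5 : 0 < ‖w‖ ^ 2 := by positivity
        have h6 := (abs_nonneg _).trans (h w)
        exact hc0 (nonneg_of_mul_nonneg_left h6 h5)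
      rw [hz u, hz v]
      simp
  rcases eq_or_ne u 0 with rfl | hu
  · simp
  rcases eq_or_ne v 0 with rfl | hv
  · simp
  have hu' : 0 < ‖u‖ := norm_pos_iff.2 hu
  have hv' : 0 < ‖v‖ := norm_pos_iff.2 hv
  have h2 := h1 ((‖u‖⁻¹ : ℝ) • u) ((‖v‖⁻¹ : ℝ) • v)
  have e1 : ‖(‖u‖⁻¹ : ℝ) • u‖ = 1 := by
    rw [norm_smul, norm_inv, norm_norm, inv_mul_cancel₀ hu'.ne']
  have e2 : ‖(‖v‖⁻¹ : ℝ) • v‖ = 1 := by
    rw [norm_smul, norm_inv, norm_norm, inv_mul_cancel₀ hv'.ne']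
  rw [e1, e2, smul_comm I, smul_comm I] at h2
  simp only [map_smul, smul_apply, smul_eq_mul] at h2
  have e4 : ‖v‖⁻¹ * (‖u‖⁻¹ * B u v) + ‖v‖⁻¹ * (‖u‖⁻¹ * B (I • u) (I • v)) =
      (‖u‖ * ‖v‖)⁻¹ * (B u v + B (I • u) (I • v)) := by
    rw [mul_inv]; ring
  have h3 : |(‖u‖ * ‖v‖)⁻¹ * (B u v + B (I • u) (I • v))| ≤ 2 * c := by
    rw [e4] at h2
    linarith
  rw [abs_mul, abs_of_pos (by positivity : 0 < (‖u‖ * ‖v‖)⁻¹)] at h3
  have h5 : 0 < ‖u‖ * ‖v‖ := by positivity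
  rw [inv_mul_le_iff₀ h5] at h3
  linarith

theorem sum_norm_sq_le (u : Cm n) : ∑ j, ‖u j‖ ^ 2 ≤ n * ‖u‖ ^ 2 := by
  calc ∑ j, ‖u j‖ ^ 2 ≤ ∑ _j : Fin n, ‖u‖ ^ 2 :=
        Finset.sum_le_sum fun j _ => pow_le_pow_left₀ (norm_nonneg _) (norm_le_pi_norm u j) 2
    _ = n * ‖u‖ ^ 2 := by simp

theorem two_smul_one_quad (x : Cm n) :
    star x ⬝ᵥ ((2 • (1 : Matrix (Fin n) (Fin n) ℂ)).mulVec x) = ((2 * ∑ j, ‖x j‖ ^ 2 : ℝ) : ℂ) := by
  rw [Matrix.smul_mulVec, Matrix.one_mulVec]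
  simp only [dotProduct, Pi.star_apply, Pi.smul_apply, nsmul_eq_mul]
  push_cast
  rw [Finset.mul_sum]
  refine Finset.sum_congr rfl fun j _ => ?_
  have : (starRingEnd ℂ) (x j) * x j = ((‖x j‖ ^ 2 : ℝ) : ℂ) := by
    rw [mul_comm, Complex.mul_conj, Complex.normSq_eq_norm_sq]
  rw [show star (x j) = (starRingEnd ℂ) (x j) from rfl]
  rw [Complex.ofReal_pow] at this
  rw [← this]
  ring

/-- the Levi form of `φ` is bounded -/
theorem lev_bound {B : N.Bil n} (hB : ∀ v w, B v w = B w v)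
    (h1 : (2 • (1 : Matrix (Fin n) (Fin n) ℂ) - N.lev B).PosSemidef)
    (h2 : (2 • (1 : Matrix (Fin n) (Fin n) ℂ) + N.lev B).PosSemidef) (u : Cm n) :
    |B u u + B (I • u) (I • u)| ≤ 8 * n * ‖u‖ ^ 2 := by
  have hs : ∑ j, ‖(star u) j‖ ^ 2 ≤ n * ‖u‖ ^ 2 := by
    have := sum_norm_sq_le (star u)
    rwa [norm_star] at this
  have e := N.lev_quadratic hB (star u)
  rw [star_star] at e
  have p1 := h1.dotProduct_mulVec_nonneg (star u)
  have p2 := h2.dotProduct_mulVec_nonneg (star u)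
  rw [Matrix.sub_mulVec, dotProduct_sub, two_smul_one_quad, star_star, e, ← Complex.ofReal_sub,
    ← Complex.ofReal_zero, Complex.real_le_real] at p1
  rw [Matrix.add_mulVec, dotProduct_add, two_smul_one_quad, star_star, e, ← Complex.ofReal_add,
    ← Complex.ofReal_zero, Complex.real_le_real] at p2
  rw [abs_le]
  constructor <;> nlinarith

/-- the holomorphic quadratic polynomial -/
def hq (φ : Cm n → ℝ) (q z : Cm n) : ℂ :=
  (φ q : ℂ) + hol1 (fderiv ℝ φ q) (z - q) + hol2 (fderiv ℝ (fderiv ℝ φ) q) (z - q)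

/-- the remaining weight -/
def psi (φ : Cm n → ℝ) (q z : Cm n) : ℝ := φ z - (hq φ q z).re

theorem differentiable_hq {φ : Cm n → ℝ} {q : Cm n} (h : ContDiffAt ℝ 2 φ q) :
    Differentiable ℂ (hq φ q) := by
  have hsymm : ∀ v w : Cm n, fderiv ℝ (fderiv ℝ φ) q v w = fderiv ℝ (fderiv ℝ φ) q w v :=
    fun v w => (h.isSymmSndFDerivAt (by simp)) v w
  have h1 := differentiable_hol1 (fderiv ℝ φ q)
  have h2 := differentiable_hol2 hsymm
  unfold hq
  fun_prop

theorem hasFDerivAt_quarter {B : N.Bil n} (hB : ∀ v w, B v w = B w v) (u : Cm n) :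
    HasFDerivAt (fun u : Cm n => (B u u - B (I • u) (I • u)) / 4) ((2 : ℝ) • quarter B u) u := by
  have d1 : HasFDerivAt (fun u => B u u) (B u + B.flip u) u := by
    have := B.hasFDerivAt (x := u)
    have h5 := this.clm_apply (hasFDerivAt_id u)
    refine h5.congr_fderiv ?_
    ext a
    simp
  have dI : HasFDerivAt (fun u : Cm n => I • u) (I • ContinuousLinearMap.id ℝ (Cm n)) u :=
    (I • ContinuousLinearMap.id ℝ (Cm n)).hasFDerivAt
  have d2 : HasFDerivAt (fun u => B (I • u) (I • u))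
      ((B (I • u) + B.flip (I • u)).comp (I • ContinuousLinearMap.id ℝ (Cm n))) u := by
    have h6 : HasFDerivAt (fun u => B u u) (B (I • u) + B.flip (I • u)) (I • u) := by
      have := B.hasFDerivAt (x := I • u)
      have h5 := this.clm_apply (hasFDerivAt_id (I • u))
      refine h5.congr_fderiv ?_
      ext a
      simp
    exact h6.comp u dI
  have d3 := (d1.sub d2).const_mul (4⁻¹ : ℝ)
  have e : (fun u : Cm n => (B u u - B (I • u) (I • u)) / 4) =
      fun u : Cm n => 4⁻¹ * ((fun u => B u u) u - (fun u => B (I • u) (I • u)) u) := by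
    funext u; ring
  rw [e]
  refine d3.congr_fderiv ?_
  ext v
  simp only [smul_apply, sub_apply, add_apply, ContinuousLinearMap.comp_apply,
    ContinuousLinearMap.id_apply, ContinuousLinearMap.flip_apply, quarter_apply, smul_eq_mul]
  rw [hB v u, hB (I • v) (I • u)]
  ring

/-- a neighbourhood where `φ` is well approximated, uniform in `q ∈ P` -/
theorem exists_unif {P U : Set (Cm n)} {φ : Cm n → ℝ} (hP : IsCompact P) (hU : IsOpen U)
    (hPU : P ⊆ U) (hφ : ContDiffOn ℝ ∞ φ U) :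
    ∃ δ : ℝ, 0 < δ ∧ ∀ q ∈ P, ∀ z, ‖z - q‖ ≤ δ → z ∈ U ∧
      ‖fderiv ℝ φ z - fderiv ℝ φ q - fderiv ℝ (fderiv ℝ φ) q (z - q)‖ ≤ ‖z - q‖ := by
  obtain ⟨δ0, hδ0, hsub⟩ := hP.exists_cthickening_subset_open hU hPU
  have hK : IsCompact (cthickening δ0 P) := hP.cthickening
  have hf1 : ContDiffOn ℝ ∞ (fderiv ℝ φ) U := hφ.fderiv_of_isOpen hU (by simp)
  have hf2 : ContDiffOn ℝ ∞ (fderiv ℝ (fderiv ℝ φ)) U := hf1.fderiv_of_isOpen hU (by simp)
  have huc := hK.uniformContinuousOn_of_continuous (hf2.continuousOn.mono hsub)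
  rw [Metric.uniformContinuousOn_iff] at huc
  obtain ⟨δ1, hδ1, huc⟩ := huc 1 one_pos
  refine ⟨min δ0 (δ1 / 2), by positivity, fun q hq z hz => ?_⟩
  have hin : ∀ y ∈ closedBall q ‖z - q‖, y ∈ cthickening δ0 P := by
    intro y hy
    refine mem_cthickening_of_dist_le y q _ _ hq ?_
    exact (mem_closedBall.1 hy).trans (hz.trans (min_le_left _ _))
  have hzin : z ∈ closedBall q ‖z - q‖ := by rw [mem_closedBall, dist_eq_norm]
  have hqin : q ∈ closedBall q ‖z - q‖ := mem_closedBall_self (norm_nonneg _)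
  refine ⟨hsub (hin z hzin), ?_⟩
  set B := fderiv ℝ (fderiv ℝ φ) q with hB
  have hder : ∀ y ∈ closedBall q ‖z - q‖, HasFDerivWithinAt (fun y => fderiv ℝ φ y - B y)
      (fderiv ℝ (fderiv ℝ φ) y - B) (closedBall q ‖z - q‖) y := by
    intro y hy
    have h1 : DifferentiableAt ℝ (fderiv ℝ φ) y :=
      (hf1.contDiffAt (hU.mem_nhds (hsub (hin y hy)))).differentiableAt (by simp)
    exact (h1.hasFDerivAt.sub B.hasFDerivAt).hasFDerivWithinAt
  have hbd : ∀ y ∈ closedBall q ‖z - q‖, ‖fderiv ℝ (fderiv ℝ φ) y - B‖ ≤ 1 := by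
    intro y hy
    have h1 := huc y (hin y hy) q (hin q hqin) (by
      have := (mem_closedBall.1 hy).trans (hz.trans (min_le_right _ _))
      linarith)
    rw [dist_eq_norm] at h1
    exact h1.le
  have key := (convex_closedBall q ‖z - q‖).norm_image_sub_le_of_norm_hasFDerivWithin_le
    hder hbd hqin hzin
  rw [one_mul] at key
  have e : fderiv ℝ φ z - B z - (fderiv ℝ φ q - B q) =
      fderiv ℝ φ z - fderiv ℝ φ q - B (z - q) := by
    rw [map_sub]; abel
  rw [e] at key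
  exact key

/-- the first derivative of the remaining weight is small -/
theorem fderiv_psi_le {φ : Cm n → ℝ} {q z : Cm n} (h2 : ContDiffAt ℝ 2 φ q)
    (hd : DifferentiableAt ℝ φ z)
    (hL : ‖fderiv ℝ φ z - fderiv ℝ φ q - fderiv ℝ (fderiv ℝ φ) q (z - q)‖ ≤ ‖z - q‖)
    (h3 : (2 • (1 : Matrix (Fin n) (Fin n) ℂ) - cHess φ q).PosSemidef)
    (h4 : (2 • (1 : Matrix (Fin n) (Fin n) ℂ) + cHess φ q).PosSemidef) :
    DifferentiableAt ℝ (psi φ q) z ∧ ‖fderiv ℝ (psi φ q) z‖ ≤ (8 * n + 1) * ‖z - q‖ := by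
  set D := fderiv ℝ φ q with hD
  set B : N.Bil n := fderiv ℝ (fderiv ℝ φ) q with hB
  have hsymm : ∀ v w : Cm n, B v w = B w v := fun v w => (h2.isSymmSndFDerivAt (by simp)) v w
  have hd2 : DifferentiableAt ℝ (fderiv ℝ φ) q :=
    (h2.fderiv_right (m := 1) (by norm_num)).differentiableAt (by simp)
  have hlev : cHess φ q = N.lev B := N.cHess_eq_lev hd2
  rw [hlev] at h3 h4
  have hb := polar_bound hsymm (lev_bound hsymm h3 h4)
  have hpsi : psi φ q = fun z => φ z - (φ q + D (z - q) +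
      (B (z - q) (z - q) - B (I • (z - q)) (I • (z - q))) / 4) := by
    funext z
    unfold psi hq
    rw [Complex.add_re, Complex.add_re, re_hol1, re_hol2, Complex.ofReal_re]
  have hsub : HasFDerivAt (fun z : Cm n => z - q) (ContinuousLinearMap.id ℝ (Cm n)) z :=
    (hasFDerivAt_id z).sub_const q
  have hder : HasFDerivAt (psi φ q) (fderiv ℝ φ z - (D + (2 : ℝ) • quarter B (z - q))) z := by
    rw [hpsi]
    have d1 : HasFDerivAt (fun z : Cm n => D (z - q)) D z := by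
      have := D.hasFDerivAt.comp z hsub
      rw [ContinuousLinearMap.comp_id] at this
      exact this
    have d2 : HasFDerivAt (fun z : Cm n => (B (z - q) (z - q) -
        B (I • (z - q)) (I • (z - q))) / 4) ((2 : ℝ) • quarter B (z - q)) z := by
      have := (hasFDerivAt_quarter hsymm (z - q)).comp z hsub
      rw [ContinuousLinearMap.comp_id] at this
      exact this
    exact hd.hasFDerivAt.sub ((d1.const_add (φ q)).add d2)
  refine ⟨hder.differentiableAt, ?_⟩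
  rw [hder.fderiv]
  refine ContinuousLinearMap.opNorm_le_bound _ (by positivity) fun v => ?_
  have e : (fderiv ℝ φ z - (D + (2 : ℝ) • quarter B (z - q))) v =
      (fderiv ℝ φ z - D - B (z - q)) v +
        (B (z - q) v + B (I • (z - q)) (I • v)) / 2 := by
    simp only [sub_apply, add_apply, smul_apply, quarter_apply, smul_eq_mul]
    ring
  rw [e]
  have b1 : ‖(fderiv ℝ φ z - D - B (z - q)) v‖ ≤ ‖z - q‖ * ‖v‖ :=
    (ContinuousLinearMap.le_opNorm _ _).trans (by gcongr)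
  have b2 := hb (z - q) v
  have b3 : ‖(B (z - q) v + B (I • (z - q)) (I • v)) / 2‖ ≤ 8 * n * (‖z - q‖ * ‖v‖) := by
    rw [Real.norm_eq_abs, abs_div, abs_of_pos (two_pos : (0 : ℝ) < 2)]
    linarith
  calc _ ≤ _ := norm_add_le _ _
    _ ≤ ‖z - q‖ * ‖v‖ + 8 * n * (‖z - q‖ * ‖v‖) := add_le_add b1 b3
    _ = _ := by ring

theorem psi_self {φ : Cm n → ℝ} (q : Cm n) : psi φ q q = 0 := by
  unfold psi hq
  rw [Complex.add_re, Complex.add_re, re_hol1, re_hol2, Complex.ofReal_re]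
  simp

end Vale.Agent.P284.H723
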