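import Vale.Agent.P284.H723.Loc
import Mathlib.Algebra.Order.Chebyshev
import Mathlib.Analysis.Complex.CauchyIntegral

/-!
# P284, package FL : pointwise estimates
-/

open MeasureTheory Set Filter Topology Metric
open scoped ContDiff ENNReal ComplexConjugate ComplexOrder
open Vale.Agent.P272.K Vale.Agent.P272.K.INT Vale.Agent.P272.KOD
open Complex (I)

noncomputable section

namespace Vale.Agent.P284.H723

variable {n : ℕ}

/-- `∂̄` of a holomorphic function -/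
theorem dzb_hol {H : Cm n → ℂ} (hH : Differentiable ℂ H) (j : Fin n) (z : Cm n) :
    dzb j H z = 0 := by
  have h1 : fderiv ℝ H z = (fderiv ℂ H z).restrictScalars ℝ :=
    ((hH z).hasFDerivAt.restrictScalars ℝ).fderiv
  have h2 : (Pi.single j I : Cm n) = I • Pi.single j 1 := by
    rw [← Pi.single_smul, smul_eq_mul, mul_one]
  rw [dzb, h1, h2]
  simp only [ContinuousLinearMap.coe_restrictScalars', map_smul, smul_eq_mul]
  rw [← mul_assoc, Complex.I_mul_I]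
  ring

/-- `∂` of the real part of a holomorphic function -/
theorem dz_re_hol {H : Cm n → ℂ} (hH : Differentiable ℂ H) (j : Fin n) (z : Cm n) :
    dz j (fun y => ((H y).re : ℂ)) z = dz j H z / 2 := by
  have hd : DifferentiableAt ℝ H z := (hH z).restrictScalars ℝ
  have hc : DifferentiableAt ℝ (fun y => conj (H y)) z :=
    (Complex.conjCLE.differentiableAt).comp z hd
  have e : (fun y => ((H y).re : ℂ)) = fun y => (1 / 2 : ℂ) * (H y + conj (H y)) := by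
    funext y
    rw [Complex.add_conj]
    push_cast
    ring
  have hs : DifferentiableAt ℝ (fun y => H y + conj (H y)) z := hd.add hc
  rw [e, dz_const_mul _ hs, dz_add hd hc, dz_conj, dzb_hol hH]
  simp
  ring

/-- norm of `∂_j` of a real function -/
theorem norm_dz_real_le (f : Cm n → ℝ) (j : Fin n) (z : Cm n) :
    ‖dz j (fun y => (f y : ℂ)) z‖ ≤ ‖fderiv ℝ f z‖ := by
  rw [N.dz_ofReal, norm_div]
  have h1 : ‖fderiv ℝ f z (Pi.single j 1)‖ ≤ ‖fderiv ℝ f z‖ := by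
    refine (ContinuousLinearMap.le_opNorm _ _).trans ?_
    rw [Pi.norm_single, norm_one, mul_one]
  have h2 : ‖fderiv ℝ f z (Pi.single j I)‖ ≤ ‖fderiv ℝ f z‖ := by
    refine (ContinuousLinearMap.le_opNorm _ _).trans ?_
    rw [Pi.norm_single, Complex.norm_I, mul_one]
  have h3 : ‖((fderiv ℝ f z (Pi.single j 1) : ℝ) : ℂ) -
      I * ((fderiv ℝ f z (Pi.single j I) : ℝ) : ℂ)‖ ≤ ‖fderiv ℝ f z‖ + ‖fderiv ℝ f z‖ := by
    refine (norm_sub_le _ _).trans (add_le_add ?_ ?_)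
    · rw [Complex.norm_real]; exact h1
    · rw [norm_mul, Complex.norm_I, one_mul, Complex.norm_real]; exact h2
  rw [Complex.norm_two]
  linarith

/-- the norm of the differential -/
theorem norm_fderiv_sq_le (G : Cm n → ℂ) (z : Cm n) :
    ‖fderiv ℝ G z‖ ^ 2 ≤ 2 * n * ∑ j, (‖dz j G z‖ ^ 2 + ‖dzb j G z‖ ^ 2) := by
  have h1 : ‖fderiv ℝ G z‖ ≤ ∑ j, (‖dz j G z‖ + ‖dzb j G z‖) := by
    refine ContinuousLinearMap.opNorm_le_bound _ (Finset.sum_nonneg fun j _ => by positivity)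
      fun v => ?_
    rw [fderiv_apply, Finset.sum_mul]
    refine (norm_sum_le _ _).trans (Finset.sum_le_sum fun j _ => ?_)
    have hv := norm_le_pi_norm v j
    refine (norm_add_le _ _).trans ?_
    rw [norm_mul, norm_mul, RCLike.norm_conj]
    nlinarith [norm_nonneg (dz j G z), norm_nonneg (dzb j G z)]
  have h2 : (∑ j, (‖dz j G z‖ + ‖dzb j G z‖)) ^ 2 ≤
      n * ∑ j, (‖dz j G z‖ + ‖dzb j G z‖) ^ 2 := by
    have := sq_sum_le_card_mul_sum_sq (s := (Finset.univ : Finset (Fin n)))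
      (f := fun j => ‖dz j G z‖ + ‖dzb j G z‖)
    simpa using this
  have h3 : ∑ j, (‖dz j G z‖ + ‖dzb j G z‖) ^ 2 ≤
      ∑ j, 2 * (‖dz j G z‖ ^ 2 + ‖dzb j G z‖ ^ 2) :=
    Finset.sum_le_sum fun j _ => by nlinarith [sq_nonneg (‖dz j G z‖ - ‖dzb j G z‖)]
  rw [← Finset.mul_sum] at h3
  calc ‖fderiv ℝ G z‖ ^ 2 ≤ (∑ j, (‖dz j G z‖ + ‖dzb j G z‖)) ^ 2 :=
        pow_le_pow_left₀ (norm_nonneg _) h1 2
    _ ≤ n * ∑ j, (‖dz j G z‖ + ‖dzb j G z‖) ^ 2 := h2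
    _ ≤ n * (2 * ∑ j, (‖dz j G z‖ ^ 2 + ‖dzb j G z‖ ^ 2)) := by gcongr
    _ = _ := by ring

/-- the twisted function -/
def tw (κ : ℝ) (φ : Cm n → ℝ) (q : Cm n) (g : Cm n → ℂ) (z : Cm n) : ℂ :=
  g z * Complex.exp (-((κ / 2 : ℝ) : ℂ) * hq φ q z)

theorem contDiff_tw {κ : ℝ} {φ : Cm n → ℝ} {q : Cm n} {g : Cm n → ℂ} (h2 : ContDiffAt ℝ 2 φ q)
    (hg : ContDiff ℝ ∞ g) : ContDiff ℝ ∞ (tw κ φ q g) := by
  have hsymm : ∀ v w : Cm n, fderiv ℝ (fderiv ℝ φ) q v w = fderiv ℝ (fderiv ℝ φ) q w v :=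
    fun v w => (h2.isSymmSndFDerivAt (by simp)) v w
  have h1 : ContDiff ℝ ∞ (hq φ q) := by
    have e : hq φ q = fun z => (φ q : ℂ) + (∑ j, ((fderiv ℝ φ q (Pi.single j 1) : ℂ) -
        I * (fderiv ℝ φ q (Pi.single j I) : ℝ)) * (z - q) j) +
        ∑ j, (∑ l, ((quarter (fderiv ℝ (fderiv ℝ φ) q) (Pi.single j 1) (Pi.single l 1) : ℂ) -
          I * (quarter (fderiv ℝ (fderiv ℝ φ) q) (Pi.single j 1) (Pi.single l I) : ℝ)) *
            (z - q) l) * (z - q) j := by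
      funext z
      unfold hq
      rw [hol1_eq, hol2_eq hsymm]
      simp only [hol1_eq]
    rw [e]
    simp only [Pi.sub_apply]
    fun_prop
  unfold tw
  exact hg.mul ((contDiff_const.mul h1).cexp)

theorem norm_exp_tw (κ : ℝ) (φ : Cm n → ℝ) (q z : Cm n) :
    ‖Complex.exp (-((κ / 2 : ℝ) : ℂ) * hq φ q z)‖ ^ 2 = Real.exp (-(κ * (hq φ q z).re)) := by
  rw [Complex.norm_exp, ← Real.exp_nat_mul, ← Complex.ofReal_neg, Complex.re_ofReal_mul]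
  congr 1
  push_cast
  ring

section

variable {κ : ℝ} {φ : Cm n → ℝ} {q z : Cm n} {g : Cm n → ℂ}

theorem dzb_tw (h2 : ContDiffAt ℝ 2 φ q) (hg : DifferentiableAt ℝ g z) (j : Fin n) :
    dzb j (tw κ φ q g) z =
      dzb j g z * Complex.exp (-((κ / 2 : ℝ) : ℂ) * hq φ q z) := by
  have hH := differentiable_hq h2
  have hd : DifferentiableAt ℝ (fun y => -((κ / 2 : ℝ) : ℂ) * hq φ q y) z :=
    ((hH z).restrictScalars ℝ).const_mul _
  unfold tw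
  rw [dzb_mul hg hd.cexp, dzb_cexp hd, dzb_const_mul _ ((hH z).restrictScalars ℝ), dzb_hol hH]
  ring

theorem dz_tw (h2 : ContDiffAt ℝ 2 φ q) (hd : DifferentiableAt ℝ φ z)
    (hg : DifferentiableAt ℝ g z) (j : Fin n) :
    dz j (tw κ φ q g) z =
      (nab (fun y => κ * φ y) j g z + κ * dz j (fun y => (psi φ q y : ℂ)) z * g z) *
        Complex.exp (-((κ / 2 : ℝ) : ℂ) * hq φ q z) := by
  have hH := differentiable_hq h2
  have hHz : DifferentiableAt ℝ (hq φ q) z := (hH z).restrictScalars ℝ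
  have hd1 : DifferentiableAt ℝ (fun y => -((κ / 2 : ℝ) : ℂ) * hq φ q y) z := hHz.const_mul _
  have hφc : DifferentiableAt ℝ (fun y => (φ y : ℂ)) z :=
    Complex.ofRealCLM.differentiableAt.comp z hd
  have hre : DifferentiableAt ℝ (fun y => ((hq φ q y).re : ℂ)) z :=
    Complex.ofRealCLM.differentiableAt.comp z (Complex.reCLM.differentiableAt.comp z hHz)
  have e1 : dz j (fun y => (psi φ q y : ℂ)) z =
      dz j (fun y => (φ y : ℂ)) z - dz j (hq φ q) z / 2 := by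
    have : (fun y => (psi φ q y : ℂ)) = fun y => (φ y : ℂ) - ((hq φ q y).re : ℂ) := by
      funext y; simp [psi]
    rw [this, dz_sub hφc hre, dz_re_hol hH]
  have e2 : dz j (fun y => ((κ * φ y : ℝ) : ℂ)) z = κ * dz j (fun y => (φ y : ℂ)) z := by
    have : (fun y => ((κ * φ y : ℝ) : ℂ)) = fun y => (κ : ℂ) * (φ y : ℂ) := by
      funext y; push_cast; ring
    rw [this, dz_const_mul _ hφc]
  unfold tw
  rw [dz_mul hg hd1.cexp, dz_cexp hd1, dz_const_mul _ hHz]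
  unfold nab
  rw [e1, e2]
  push_cast
  ring

variable (hκ : 0 ≤ κ) (h2 : ContDiffAt ℝ 2 φ q) (hd : DifferentiableAt ℝ φ z)
  (hs : |κ * psi φ q z| ≤ 1)

include hs in
theorem pw1 : ‖g z‖ ^ 2 * Real.exp (-(κ * φ z)) ≤ Real.exp 1 * ‖tw κ φ q g z‖ ^ 2 := by
  unfold tw
  rw [norm_mul, mul_pow, norm_exp_tw]
  have h1 : Real.exp (-(κ * φ z)) ≤ Real.exp 1 * Real.exp (-(κ * (hq φ q z).re)) := by
    rw [← Real.exp_add]
    apply Real.exp_le_exp.2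
    have := (abs_le.1 hs).1
    unfold psi at this
    nlinarith
  calc _ ≤ ‖g z‖ ^ 2 * (Real.exp 1 * Real.exp (-(κ * (hq φ q z).re))) := by gcongr
    _ = _ := by ring

include hs in
theorem exp_le : Real.exp (-(κ * (hq φ q z).re)) ≤ Real.exp 1 * Real.exp (-(κ * φ z)) := by
  rw [← Real.exp_add]
  apply Real.exp_le_exp.2
  have := (abs_le.1 hs).2
  unfold psi at this
  nlinarith

include hκ h2 hd hs in
theorem pw2 (hg : DifferentiableAt ℝ g z) {c : ℝ} (hc : ‖fderiv ℝ (psi φ q) z‖ ≤ c) :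
    ‖fderiv ℝ (tw κ φ q g) z‖ ^ 2 ≤ 2 * n * Real.exp 1 *
      ((∑ j, (2 * ‖nab (fun y => κ * φ y) j g z‖ ^ 2 + ‖dzb j g z‖ ^ 2) +
        2 * n * (κ * c) ^ 2 * ‖g z‖ ^ 2) * Real.exp (-(κ * φ z))) := by
  have hE := norm_exp_tw κ φ q z
  have hE2 := exp_le hs
  set E := Complex.exp (-((κ / 2 : ℝ) : ℂ) * hq φ q z) with hEdef
  have t1 : ∀ j, ‖dzb j (tw κ φ q g) z‖ ^ 2 = ‖dzb j g z‖ ^ 2 * ‖E‖ ^ 2 := by
    intro j
    rw [dzb_tw h2 hg, norm_mul, mul_pow]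
  have t2 : ∀ j, ‖dz j (tw κ φ q g) z‖ ^ 2 ≤
      (2 * ‖nab (fun y => κ * φ y) j g z‖ ^ 2 + 2 * (κ * c) ^ 2 * ‖g z‖ ^ 2) * ‖E‖ ^ 2 := by
    intro j
    rw [dz_tw h2 hd hg, norm_mul, mul_pow]
    gcongr
    have h5 : ‖(κ : ℂ) * dz j (fun y => (psi φ q y : ℂ)) z * g z‖ ≤ κ * c * ‖g z‖ := by
      rw [norm_mul, norm_mul, Complex.norm_real, Real.norm_of_nonneg hκ]
      gcongr
      exact (norm_dz_real_le _ j z).trans hc
    have h6 := norm_add_le (nab (fun y => κ * φ y) j g z)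
      ((κ : ℂ) * dz j (fun y => (psi φ q y : ℂ)) z * g z)
    have h7 : ‖nab (fun y => κ * φ y) j g z + (κ : ℂ) * dz j (fun y => (psi φ q y : ℂ)) z * g z‖ ≤
        ‖nab (fun y => κ * φ y) j g z‖ + κ * c * ‖g z‖ := h6.trans (by gcongr)
    calc _ ≤ (‖nab (fun y => κ * φ y) j g z‖ + κ * c * ‖g z‖) ^ 2 :=
          pow_le_pow_left₀ (norm_nonneg _) h7 2
      _ ≤ _ := by nlinarith [sq_nonneg (‖nab (fun y => κ * φ y) j g z‖ - κ * c * ‖g z‖)]
  refine (norm_fderiv_sq_le _ _).trans ?_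
  have h8 : ∑ j, (‖dz j (tw κ φ q g) z‖ ^ 2 + ‖dzb j (tw κ φ q g) z‖ ^ 2) ≤
      ((∑ j, (2 * ‖nab (fun y => κ * φ y) j g z‖ ^ 2 + ‖dzb j g z‖ ^ 2) +
        2 * n * (κ * c) ^ 2 * ‖g z‖ ^ 2)) * ‖E‖ ^ 2 := by
    have h9 : ∀ j ∈ (Finset.univ : Finset (Fin n)),
        ‖dz j (tw κ φ q g) z‖ ^ 2 + ‖dzb j (tw κ φ q g) z‖ ^ 2 ≤
        ((2 * ‖nab (fun y => κ * φ y) j g z‖ ^ 2 + ‖dzb j g z‖ ^ 2) +
          2 * (κ * c) ^ 2 * ‖g z‖ ^ 2) * ‖E‖ ^ 2 := by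
      intro j _
      rw [t1]
      nlinarith [t2 j]
    refine (Finset.sum_le_sum h9).trans (le_of_eq ?_)
    rw [← Finset.sum_mul, Finset.sum_add_distrib]
    simp only [Finset.sum_const, Finset.card_univ, Fintype.card_fin, nsmul_eq_mul]
    ring
  have h10 : 0 ≤ ∑ j, (2 * ‖nab (fun y => κ * φ y) j g z‖ ^ 2 + ‖dzb j g z‖ ^ 2) +
        2 * n * (κ * c) ^ 2 * ‖g z‖ ^ 2 := by
    have : 0 ≤ ∑ j, (2 * ‖nab (fun y => κ * φ y) j g z‖ ^ 2 + ‖dzb j g z‖ ^ 2) :=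
      Finset.sum_nonneg fun j _ => by positivity
    positivity
  calc _ ≤ 2 * n * (((∑ j, (2 * ‖nab (fun y => κ * φ y) j g z‖ ^ 2 + ‖dzb j g z‖ ^ 2) +
        2 * n * (κ * c) ^ 2 * ‖g z‖ ^ 2)) * ‖E‖ ^ 2) := by gcongr
    _ ≤ 2 * n * (((∑ j, (2 * ‖nab (fun y => κ * φ y) j g z‖ ^ 2 + ‖dzb j g z‖ ^ 2) +
        2 * n * (κ * c) ^ 2 * ‖g z‖ ^ 2)) * (Real.exp 1 * Real.exp (-(κ * φ z)))) := by
        rw [hE]
        gcongr
    _ = _ := by ring

end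

end Vale.Agent.P284.H723
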