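import Vale.Agent.P284.H747.Spec
import Vale.Agent.P284.H723.FL

/-!
# P284, package FL
-/

namespace Vale.Agent.P284.H723

theorem spec_FL : Vale.Agent.P284.H747.Spec_FL := fun _ hn _ hK => FL hn hK

end Vale.Agent.P284.H723
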